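import Vale.Agent.P033.PS.Packing

/-!
# P033: a power saving for the exceptional set

An exceptional `u > √x` has a square divisor or a product of events of size a power of `x`; both
are rare.
-/

open Finset
open scoped Classical

namespace Vale.Agent.P033.PS

open Vale.Agent.P033

/-- A prime part outside the large simple primes is controlled by a cube of half exponents. -/
theorem part_le_cube {B p e : ℕ} (hp : 0 < p) (h : e = 1 → p ≤ B) :
    p ^ e ≤ (if e = 1 then B + 1 else 1) * (p ^ (e / 2)) ^ 3 := by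
  split_ifs with he
  · subst he
    simpa using (h rfl).trans (Nat.le_succ B)
  · rw [one_mul, ← pow_mul]
    exact Nat.pow_le_pow_right hp (by omega)

/-- An exceptional number above `√x` has a large square divisor or event divisor. -/
theorem exceptional_split {B : ℕ} (hB : 2 ^ 16 ≤ B) {x u : ℕ} (hu : 0 < u)
    (hux : u ≤ x) (hsq : x < u * u) (hCH : IsCHOrder (4 * u ^ 2)) :
    (∃ d ∈ (Icc 1 x).filter (fun d => x ≤ (16 * ((B + 1) ^ (B + 1)) ^ 16) ^ 4 * d ^ 192),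
        d * d ∣ u) ∨
      ∃ D ∈ (Icc 1 x).filter (fun D => EvProd B D ∧ x ≤ D ^ 64), D ∣ u := by
  set R := u.primeFactors.filter fun p => B < p ∧ u.factorization p = 1
  obtain ⟨R', hR', hev, hpack⟩ := exists_packing (B := B) R fun p hp =>
    ⟨Nat.prime_of_mem_primeFactors (mem_filter.1 hp).1, (mem_filter.1 hp).2.1⟩
  have hbound := exceptional_bound hB hu hCH R' (hR'.trans (filter_subset _ _))
    (fun p hp => (mem_filter.1 (hR' hp)).2) hpack
  set D := ∏ p ∈ R \ R', p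
  set S := u.primeFactors \ R
  set d := ∏ p ∈ S, p ^ (u.factorization p / 2)
  have hfull : u = ∏ p ∈ u.primeFactors, p ^ u.factorization p := by
    conv_lhs => rw [← Nat.prod_factorization_pow_eq_self hu.ne']
    rw [Finsupp.prod, Nat.support_factorization]
  have hone : ∀ p ∈ R, p ^ u.factorization p = p := fun p hp => by
    rw [(mem_filter.1 hp).2.2, pow_one]
  have hsplit : u = (∏ p ∈ R', p) * (D * ∏ p ∈ S, p ^ u.factorization p) := by
    conv_lhs => rw [hfull, ← prod_sdiff (filter_subset _ _ : R ⊆ u.primeFactors),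
      prod_congr rfl hone, ← prod_sdiff hR']
    ring
  have hR0 : 0 < ∏ p ∈ R', p :=
    prod_pos fun p hp => (Nat.prime_of_mem_primeFactors (mem_filter.1 (hR' hp)).1).pos
  rw [Nat.div_eq_of_eq_mul_right hR0 hsplit] at hbound
  have hw : ∏ p ∈ S, p ^ u.factorization p ≤ (B + 1) ^ (B + 1) * d ^ 3 := by
    have hp : ∀ p ∈ S, p.Prime := fun p hp => Nat.prime_of_mem_primeFactors (sdiff_subset hp)
    have h1 : ∀ p ∈ S, u.factorization p = 1 → p ≤ B := fun p hpS he => by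
      by_contra hlt
      exact (mem_sdiff.1 hpS).2 (mem_filter.2 ⟨sdiff_subset hpS, not_le.1 hlt, he⟩)
    refine (prod_le_prod (fun _ _ => Nat.zero_le _)
      fun p hpS => part_le_cube (hp p hpS).pos (h1 p hpS)).trans ?_
    rw [prod_mul_distrib, prod_pow, ← prod_filter, prod_const]
    refine Nat.mul_le_mul_right _ (Nat.pow_le_pow_right (Nat.succ_pos B) ?_)
    exact (card_le_card fun p hp' => mem_range.2 (Nat.lt_succ_of_le
      (h1 p (mem_filter.1 hp').1 (mem_filter.1 hp').2))).trans_eq (card_range _)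
  have hd2 : d * d ∣ u := by
    conv_rhs => rw [hfull]
    rw [← prod_mul_distrib]
    refine (prod_dvd_prod_of_dvd _ (fun p => p ^ u.factorization p) fun p _ => ?_).trans
      (prod_dvd_prod_of_subset _ _ _ sdiff_subset)
    rw [← pow_add]
    exact pow_dvd_pow p (by omega)
  have hd1 : 1 ≤ d := prod_pos fun p hp =>
    pow_pos (Nat.prime_of_mem_primeFactors (sdiff_subset hp)).pos _
  have hdx : d ≤ x := (Nat.le_mul_of_pos_left d hd1).trans ((Nat.le_of_dvd hu hd2).trans hux)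
  have hDu : D ∣ u := ⟨(∏ p ∈ R', p) * ∏ p ∈ S, p ^ u.factorization p, hsplit.trans (by ring)⟩
  rcases le_or_gt x (D ^ 64) with hD | hD
  · exact Or.inr ⟨D, mem_filter.2 ⟨mem_Icc.2 ⟨hev.pos, (Nat.le_of_dvd hu hDu).trans hux⟩, hev, hD⟩,
      hDu⟩
  refine Or.inl ⟨d, mem_filter.2 ⟨mem_Icc.2 ⟨hd1, hdx⟩, ?_⟩, hd2⟩
  set C := (B + 1) ^ (B + 1)
  have h1 : u ≤ 16 * C ^ 16 * (d ^ 48 * D ^ 16) := by
    refine hbound.trans ?_
    calc 16 * (D * ∏ p ∈ S, p ^ u.factorization p) ^ 16 ≤ 16 * (D * (C * d ^ 3)) ^ 16 :=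
          Nat.mul_le_mul_left _ (Nat.pow_le_pow_left (Nat.mul_le_mul_left _ hw) 16)
      _ = _ := by ring
  have h2 : x * x < (16 * C ^ 16) ^ 4 * d ^ 192 * x := by
    calc x * x < (u * u) * (u * u) := Nat.mul_lt_mul'' hsq hsq
      _ ≤ (16 * C ^ 16 * (d ^ 48 * D ^ 16)) ^ 4 := by
          rw [show (u * u) * (u * u) = u ^ 4 by ring]
          exact Nat.pow_le_pow_left h1 4
      _ = (16 * C ^ 16) ^ 4 * d ^ 192 * D ^ 64 := by ring
      _ ≤ _ := Nat.mul_le_mul_left _ hD.le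
  exact (Nat.lt_of_mul_lt_mul_right h2).le

/-- Few numbers up to `x` have a large square divisor. -/
theorem card_square_part (C4 : ℕ) : ∃ c : ℝ, 0 ≤ c ∧ ∀ x : ℕ, 0 < x →
    (#((Icc 1 x).filter fun u => ∃ d ∈ (Icc 1 x).filter (fun d => x ≤ C4 * d ^ 192), d * d ∣ u) : ℝ)
      ≤ c * (x : ℝ) ^ (1 - 1 / 384 : ℝ) := by
  have hsum : Summable fun n : ℕ => (n : ℝ) ^ (-3 / 2 : ℝ) :=
    Real.summable_nat_rpow.2 (by norm_num)
  refine ⟨(C4 : ℝ) ^ (1 / 384 : ℝ) * ∑' n : ℕ, (n : ℝ) ^ (-3 / 2 : ℝ), ?_, fun x hx => ?_⟩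
  · exact mul_nonneg (by positivity) (tsum_nonneg fun n => by positivity)
  have hx0 : (0 : ℝ) < x := by exact_mod_cast hx
  set F := (Icc 1 x).filter fun d => x ≤ C4 * d ^ 192
  refine le_trans ?_ ((card_exists_dvd_le x F fun d => d * d).trans ?_)
  · exact Nat.cast_le.2 (card_le_card fun u hu => by
      simpa only [mem_filter] using hu)
  have hterm : ∀ d ∈ F, (x : ℝ) / ((d * d : ℕ) : ℝ) ≤
      (C4 : ℝ) ^ (1 / 384 : ℝ) * (x : ℝ) ^ (1 - 1 / 384 : ℝ) * (d : ℝ) ^ (-3 / 2 : ℝ) := by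
    intro d hd
    obtain ⟨hd1, hd2⟩ := mem_filter.1 hd
    have hd0 : (0 : ℝ) < d := by exact_mod_cast (mem_Icc.1 hd1).1
    have hd2' : (x : ℝ) ≤ C4 * (d : ℝ) ^ 192 := by exact_mod_cast hd2
    have h1 : (x : ℝ) ^ (1 / 384 : ℝ) ≤ (C4 : ℝ) ^ (1 / 384 : ℝ) * (d : ℝ) ^ (1 / 2 : ℝ) := by
      refine (Real.rpow_le_rpow hx0.le hd2' (by norm_num)).trans (le_of_eq ?_)
      rw [Real.mul_rpow (by positivity) (by positivity), ← Real.rpow_natCast (d : ℝ) 192,
        ← Real.rpow_mul hd0.le]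
      norm_num
    have h2 : (x : ℝ) = (x : ℝ) ^ (1 - 1 / 384 : ℝ) * (x : ℝ) ^ (1 / 384 : ℝ) := by
      rw [← Real.rpow_add hx0]; norm_num
    have h3 : (d : ℝ) ^ (-3 / 2 : ℝ) * ((d * d : ℕ) : ℝ) = (d : ℝ) ^ (1 / 2 : ℝ) := by
      rw [show ((d * d : ℕ) : ℝ) = (d : ℝ) ^ (2 : ℝ) by rw [Real.rpow_two]; push_cast; ring,
        ← Real.rpow_add hd0]
      norm_num
    rw [div_le_iff₀ (by push_cast; positivity), mul_assoc, h3]
    conv_lhs => rw [h2]
    refine (mul_le_mul_of_nonneg_left h1 (by positivity)).trans (le_of_eq ?_)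
    ring
  refine (sum_le_sum hterm).trans ?_
  rw [← mul_sum, mul_right_comm]
  exact mul_le_mul_of_nonneg_right
    (mul_le_mul_of_nonneg_left (hsum.sum_le_tsum _ fun n _ => by positivity) (by positivity))
    (by positivity)

/-- Few numbers up to `x` have a large product of events as a divisor. -/
theorem card_event_part {B : ℕ}
    (hB : ∀ x : ℕ, ∑ s ∈ (Icc 1 x).filter (Ev B), (s : ℝ) ^ (-(1 - 1 / 4000) : ℝ) ≤ 1 / 2)
    {x : ℕ} (hx : 0 < x) :
    (#((Icc 1 x).filter fun u =>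
        ∃ D ∈ (Icc 1 x).filter (fun D => EvProd B D ∧ x ≤ D ^ 64), D ∣ u) : ℝ) ≤
      2 * (x : ℝ) ^ (1 - 1 / 256000 : ℝ) := by
  have hx0 : (0 : ℝ) < x := by exact_mod_cast hx
  set F := (Icc 1 x).filter fun D => EvProd B D ∧ x ≤ D ^ 64
  refine le_trans ?_ ((card_exists_dvd_le x F fun D => D).trans ?_)
  · exact Nat.cast_le.2 (card_le_card fun u hu => by
      simpa only [mem_filter] using hu)
  have hterm : ∀ D ∈ F, (x : ℝ) / D ≤
      (x : ℝ) ^ (1 - 1 / 256000 : ℝ) * (D : ℝ) ^ (-(1 - 1 / 4000) : ℝ) := by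
    intro D hD
    obtain ⟨hD1, -, hD2⟩ := mem_filter.1 hD
    have hD0 : (0 : ℝ) < D := by exact_mod_cast (mem_Icc.1 hD1).1
    have hD2' : (x : ℝ) ≤ (D : ℝ) ^ 64 := by exact_mod_cast hD2
    have h1 : (x : ℝ) ^ (1 / 256000 : ℝ) ≤ (D : ℝ) ^ (1 / 4000 : ℝ) := by
      refine (Real.rpow_le_rpow hx0.le hD2' (by norm_num)).trans (le_of_eq ?_)
      rw [← Real.rpow_natCast (D : ℝ) 64, ← Real.rpow_mul hD0.le]
      norm_num
    have h2 : (x : ℝ) = (x : ℝ) ^ (1 - 1 / 256000 : ℝ) * (x : ℝ) ^ (1 / 256000 : ℝ) := by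
      rw [← Real.rpow_add hx0]; norm_num
    have h3 : (D : ℝ) ^ (-(1 - 1 / 4000) : ℝ) * D = (D : ℝ) ^ (1 / 4000 : ℝ) := by
      rw [← Real.rpow_add_one hD0.ne']; norm_num
    rw [div_le_iff₀ hD0, mul_assoc, h3]
    conv_lhs => rw [h2]
    exact mul_le_mul_of_nonneg_left h1 (by positivity)
  refine (sum_le_sum hterm).trans ?_
  rw [← mul_sum, mul_comm]
  refine mul_le_mul_of_nonneg_right ?_ (by positivity)
  refine le_trans ?_ (sum_evProd_le hB x)
  exact sum_le_sum_of_subset_of_nonneg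
    (fun D hD => mem_filter.2 ⟨(mem_filter.1 hD).1, (mem_filter.1 hD).2.1⟩)
    fun _ _ _ => by positivity

/-- **Power saving for the exceptional `u`.** -/
theorem exceptional_power_saving : ∃ C : ℝ, 0 ≤ C ∧ ∀ x : ℕ,
    (((Icc 1 x).filter fun u => IsCHOrder (4 * u ^ 2)).card : ℝ) ≤
      C * (x : ℝ) ^ (1 - 1 / 1000000 : ℝ) := by
  obtain ⟨B, hB16, hB⟩ := exists_small_events
  obtain ⟨c, hc0, hc⟩ := card_square_part ((16 * ((B + 1) ^ (B + 1)) ^ 16) ^ 4)
  refine ⟨1 + c + 2, by linarith, fun x => ?_⟩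
  rcases Nat.eq_zero_or_pos x with rfl | hx
  · rw [show Icc 1 0 = (∅ : Finset ℕ) from rfl, filter_empty, card_empty, Nat.cast_zero]
    positivity
  have hx1 : (1 : ℝ) ≤ x := by exact_mod_cast hx
  have hpow : ∀ e : ℝ, e ≤ 1 - 1 / 1000000 → (x : ℝ) ^ e ≤ (x : ℝ) ^ (1 - 1 / 1000000 : ℝ) :=
    fun e he => Real.rpow_le_rpow_of_exponent_le hx1 he
  set E1 := (Icc 1 x).filter fun u => ∃ d ∈ (Icc 1 x).filter
    (fun d => x ≤ (16 * ((B + 1) ^ (B + 1)) ^ 16) ^ 4 * d ^ 192), d * d ∣ u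
  set E2 := (Icc 1 x).filter fun u =>
    ∃ D ∈ (Icc 1 x).filter (fun D => EvProd B D ∧ x ≤ D ^ 64), D ∣ u
  have hsub : ((Icc 1 x).filter fun u => IsCHOrder (4 * u ^ 2)) ⊆
      Icc 1 (Nat.sqrt x) ∪ E1 ∪ E2 := by
    intro u hu
    obtain ⟨hu1, hCH⟩ := mem_filter.1 hu
    obtain ⟨h1, h2⟩ := mem_Icc.1 hu1
    rcases Nat.lt_or_ge x (u * u) with h | h
    · rcases exceptional_split hB16 h1 h2 h hCH with h' | h'
      · refine mem_union_left _ (mem_union_right _ ?_)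
        simp only [E1, mem_filter] at h' ⊢
        exact ⟨hu1, h'⟩
      · refine mem_union_right _ ?_
        simp only [E2, mem_filter] at h' ⊢
        exact ⟨hu1, h'⟩
    · exact mem_union_left _ (mem_union_left _ (mem_Icc.2 ⟨h1, Nat.le_sqrt.2 h⟩))
  have hcard := (Nat.cast_le (α := ℝ)).2 ((card_le_card hsub).trans
    ((card_union_le _ _).trans (Nat.add_le_add_right (card_union_le _ _) _)))
  push_cast [Nat.card_Icc, Nat.add_sub_cancel] at hcard
  have h0 : (Nat.sqrt x : ℝ) ≤ (x : ℝ) ^ (1 - 1 / 1000000 : ℝ) := by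
    refine Real.nat_sqrt_le_real_sqrt.trans ?_
    rw [Real.sqrt_eq_rpow]
    exact hpow _ (by norm_num)
  have h1 : (#E1 : ℝ) ≤ c * (x : ℝ) ^ (1 - 1 / 1000000 : ℝ) :=
    (hc x hx).trans (mul_le_mul_of_nonneg_left (hpow _ (by norm_num)) hc0)
  have h2 : (#E2 : ℝ) ≤ 2 * (x : ℝ) ^ (1 - 1 / 1000000 : ℝ) :=
    (card_event_part hB hx).trans (mul_le_mul_of_nonneg_left (hpow _ (by norm_num)) two_pos.le)
  linarith

/-- **Power saving for the orders.** -/
theorem orders_power_saving : ∃ C : ℝ, ∀ x : ℕ,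
    (((Icc 1 x).filter fun n => IsCHOrder n).card : ℝ) ≤
      C * (x : ℝ) ^ (1 / 2 - 1 / 2000000 : ℝ) := by
  obtain ⟨C, hC0, hC⟩ := exceptional_power_saving
  refine ⟨C + 1, fun x => ?_⟩
  rcases Nat.eq_zero_or_pos x with rfl | hx
  · rw [show Icc 1 0 = (∅ : Finset ℕ) from rfl, filter_empty, card_empty, Nat.cast_zero]
    positivity
  have hx1 : (1 : ℝ) ≤ x := by exact_mod_cast hx
  set U := Nat.sqrt x
  have hsub : (Icc 1 x).filter (fun n => IsCHOrder n) ⊆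
      insert 1 (((Icc 1 U).filter fun u => IsCHOrder (4 * u ^ 2)).image fun u => 4 * u ^ 2) := by
    intro n hn
    obtain ⟨hnI, hnCH⟩ := mem_filter.1 hn
    obtain ⟨hn1, hnx⟩ := mem_Icc.1 hnI
    rcases eq_or_lt_of_le hn1 with h | h
    · exact mem_insert.2 (Or.inl h.symm)
    obtain ⟨u, rfl⟩ := exists_four_sq h hnCH
    refine mem_insert_of_mem (mem_image.2 ⟨u, mem_filter.2 ⟨mem_Icc.2 ⟨?_, ?_⟩, hnCH⟩, rfl⟩)
    · exact Nat.one_le_iff_ne_zero.2 fun h0 => by simp [h0] at h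
    · exact Nat.le_sqrt.2 (le_trans (by nlinarith) hnx)
  have h1 : ((((Icc 1 x).filter fun n => IsCHOrder n).card : ℕ) : ℝ) ≤
      ((((Icc 1 U).filter fun u => IsCHOrder (4 * u ^ 2)).card : ℕ) : ℝ) + 1 := by
    exact_mod_cast (card_le_card hsub).trans ((card_insert_le _ _).trans
      (Nat.add_le_add_right card_image_le 1))
  have h2 : (U : ℝ) ^ (1 - 1 / 1000000 : ℝ) ≤ (x : ℝ) ^ (1 / 2 - 1 / 2000000 : ℝ) := by
    refine (Real.rpow_le_rpow (Nat.cast_nonneg _) Real.nat_sqrt_le_real_sqrt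
      (by norm_num)).trans (le_of_eq ?_)
    rw [Real.sqrt_eq_rpow, ← Real.rpow_mul (by positivity)]
    norm_num
  have h3 : (1 : ℝ) ≤ (x : ℝ) ^ (1 / 2 - 1 / 2000000 : ℝ) := Real.one_le_rpow hx1 (by norm_num)
  have h4 := mul_le_mul_of_nonneg_left h2 hC0
  linarith [hC U]

end Vale.Agent.P033.PS
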