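import Vale.Agent.P033.PS.Local
import Vale.Agent.P033.NoFlat

/-!
# P033: the logarithmic norm and the energy of a part of a flat element
-/

open NumberField Finset
open scoped ComplexConjugate

namespace Vale.Agent.P033.PS

open Vale.Agent.P033

variable {N : ℕ} [NeZero N] {K : Type*} [Field K] [NumberField K] [IsCyclotomicExtension {N} ℚ K]

variable (N) in
/-- The logarithm of the absolute norm, as a sum over the Galois group. -/
noncomputable def lG (w : 𝓞 K) : ℝ := ∑ a : (ZMod N)ˣ, Real.log ‖emb K (gal a w)‖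

theorem norm_gal_pos {w : 𝓞 K} (hw : w ≠ 0) (a : (ZMod N)ˣ) : 0 < ‖emb K (gal a w)‖ :=
  norm_pos_iff.2 fun h => hw (gal_injective a (by
    rw [map_zero]; exact emb_injective (by rw [h, map_zero])))

theorem lG_nonneg {w : 𝓞 K} (hw : w ≠ 0) : 0 ≤ lG N w := by
  have : IsGalois ℚ K := IsCyclotomicExtension.isGalois {N} ℚ K
  set e := IsCyclotomicExtension.Rat.galEquivZMod N K
  have hprod : algebraMap ℚ K (Algebra.norm ℚ (w : K)) =
      ∏ a : (ZMod N)ˣ, ((gal a w : 𝓞 K) : K) := by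
    rw [Algebra.norm_eq_prod_automorphisms]
    exact (Fintype.prod_equiv e.symm.toEquiv _ _ fun a => rfl).symm
  obtain ⟨z, hz⟩ := IsIntegrallyClosed.isIntegral_iff.1
    (Algebra.isIntegral_norm ℚ (RingOfIntegers.isIntegral_coe w))
  have hz0 : z ≠ 0 := by
    rintro rfl
    rw [map_zero, eq_comm, Algebra.norm_eq_zero_iff] at hz
    exact hw (RingOfIntegers.coe_eq_zero_iff.1 hz)
  have hzprod : (z : ℂ) = ∏ a : (ZMod N)ˣ, emb K (gal a w) := by
    have := congrArg (Classical.arbitrary (K →+* ℂ)) hprod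
    rw [← hz, map_prod] at this
    simpa [emb] using this
  rw [lG, ← Real.log_prod fun a _ => (norm_gal_pos hw a).ne', ← norm_prod, ← hzprod,
    Complex.norm_intCast]
  exact Real.log_nonneg (by exact_mod_cast Int.one_le_abs hz0)

theorem lG_mul {v w : 𝓞 K} (hv : v ≠ 0) (hw : w ≠ 0) : lG N (v * w) = lG N v + lG N w := by
  rw [lG, lG, lG, ← sum_add_distrib]
  refine sum_congr rfl fun a _ => ?_
  rw [map_mul, map_mul, norm_mul, Real.log_mul (norm_gal_pos hv a).ne' (norm_gal_pos hw a).ne']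

theorem lG_le_of_dvd {v w : 𝓞 K} (hw : w ≠ 0) (h : v ∣ w) : lG N v ≤ lG N w := by
  obtain ⟨c, rfl⟩ := h
  rw [mul_ne_zero_iff] at hw
  rw [lG_mul hw.1 hw.2]
  linarith [lG_nonneg (N := N) hw.2]

theorem lG_pow {w : 𝓞 K} (n : ℕ) : lG N (w ^ n) = n * lG N w := by
  simp only [lG, map_pow, norm_pow, Real.log_pow, mul_sum]

theorem lG_natCast (n : ℕ) :
    lG N (n : 𝓞 K) = (Fintype.card (ZMod N)ˣ : ℝ) * Real.log n := by
  simp [lG]

theorem lG_cj (w : 𝓞 K) : lG N (cj N K w) = lG N w := by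
  refine sum_congr rfl fun a _ => ?_
  rw [show gal a (cj N K w) = cj N K (gal a w) from gal_comm _ _ _, emb_cj, RCLike.norm_conj]

theorem lG_prod {ι : Type*} (s : Finset ι) (g : ι → 𝓞 K) (h : ∀ i ∈ s, g i ≠ 0) :
    lG N (∏ i ∈ s, g i) = ∑ i ∈ s, lG N (g i) := by
  classical
  induction s using Finset.induction_on with
  | empty => simp [lG]
  | insert i s hi ih =>
    rw [prod_insert hi, sum_insert hi,
      lG_mul (h i (mem_insert_self _ _)) (prod_ne_zero_iff.2 fun j hj => h j (mem_insert_of_mem hj)),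
      ih fun j hj => h j (mem_insert_of_mem hj)]

/-- The norm of `π` is that of `P` divided by `φ (P ^ e)`. -/
theorem lG_pi_le {P e M : ℕ} [hP : Fact P.Prime] (hN : N = P ^ e * M) (he : 2 ≤ e) :
    ((P - 1 : ℕ) : ℝ) * lG N (pi N K M) * P ≤
      (Fintype.card (ZMod N)ˣ : ℝ) * Real.log P := by
  have h : lG N (pi N K M ^ (P ^ e).totient) ≤ lG N (P : 𝓞 K) :=
    lG_le_of_dvd (Nat.cast_ne_zero.2 hP.out.ne_zero) (pi_pow_assoc hN he).dvd
  rw [lG_pow, lG_natCast] at h
  refine le_trans ?_ h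
  rw [mul_right_comm]
  refine mul_le_mul_of_nonneg_right ?_ (lG_nonneg (pi_ne_zero hN he))
  rw [← Nat.cast_mul, Nat.cast_le, Nat.totient_prime_pow hP.out (by omega), mul_comm]
  exact Nat.mul_le_mul_right _ (Nat.le_self_pow (by omega) P)

/-- A lower bound for the logarithmic norm gives one for the energy. -/
theorem energy_lower {w : 𝓞 K} (hw : w ≠ 0) {c : ℝ} (hc : 0 < c)
    (h : (Fintype.card (ZMod N)ˣ : ℝ) * Real.log c ≤ 2 * lG N w) :
    (Fintype.card (ZMod N)ˣ : ℝ) * c ≤ ∑ a : (ZMod N)ˣ, ‖emb K (gal a w)‖ ^ 2 := by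
  have hpos : ∀ a : (ZMod N)ˣ, 0 < ‖emb K (gal a w)‖ ^ 2 / c := fun a => by
    have := norm_gal_pos hw a
    positivity
  have h2 := sum_le_sum fun a (_ : a ∈ (univ : Finset (ZMod N)ˣ)) =>
    Real.log_le_sub_one_of_pos (hpos a)
  have h3 : ∑ a : (ZMod N)ˣ, Real.log (‖emb K (gal a w)‖ ^ 2 / c) =
      2 * lG N w - (Fintype.card (ZMod N)ˣ : ℝ) * Real.log c := by
    rw [sum_congr rfl fun a _ => by
      rw [Real.log_div (pow_ne_zero 2 (norm_gal_pos hw a).ne') hc.ne', Real.log_pow],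
      sum_sub_distrib, ← mul_sum, sum_const, card_univ, nsmul_eq_mul, lG]
    push_cast
    ring
  rw [h3, sum_sub_distrib, sum_const, card_univ, nsmul_one, ← sum_div] at h2
  rw [← le_div_iff₀ hc]
  linarith

/-- Parseval: the energy of a part with few coefficients in `[-2, 2]` is small. -/
theorem energy_upper (A : Finset ℕ) (hA : A ⊆ range N) (f : ℕ → ℤ) (hf : ∀ j < N, |f j| ≤ 2) :
    ∑ a : (ZMod N)ˣ, ‖emb K (gal a (∑ j ∈ A, (f j : 𝓞 K) * zO N K ^ j))‖ ^ 2 ≤
      (N : ℝ) * (4 * A.card) := by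
  classical
  set g : ℕ → ℤ := fun j => if j ∈ A then f j else 0
  set η := emb K (zO N K)
  have hη : IsPrimitiveRoot η N := zO_prim.map_of_injective emb_injective
  have hval : ∀ a : (ZMod N)ˣ, emb K (gal a (∑ j ∈ A, (f j : 𝓞 K) * zO N K ^ j)) =
      ∑ j ∈ range N, (g j : ℂ) * (η ^ (a : ZMod N).val) ^ j := fun a => by
    rw [map_sum, map_sum, ← sum_subset hA (f := fun j => (g j : ℂ) * _) fun j _ hj => by
      simp [g, hj]]
    refine sum_congr rfl fun j hj => ?_
    rw [map_mul, map_mul, map_intCast, map_intCast, gal_zO_pow, map_pow, pow_mul]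
    simp [g, hj, η]
  simp only [hval]
  refine le_trans ?_ ((sum_normSq_pow hη g).le.trans
    (mul_le_mul_of_nonneg_left ?_ (Nat.cast_nonneg N)))
  · rw [← sum_image (f := fun b => ‖∑ j ∈ range N, (g j : ℂ) * (η ^ b) ^ j‖ ^ 2)
      (g := fun a : (ZMod N)ˣ => (a : ZMod N).val)
      fun a _ b _ e => Units.ext (ZMod.val_injective N e)]
    exact sum_le_sum_of_subset_of_nonneg
      (image_subset_iff.2 fun a _ => mem_range.2 (ZMod.val_lt _)) fun _ _ _ => by positivity
  · rw [← sum_subset hA (f := fun j => ((g j : ℝ)) ^ 2) fun j _ hj => by simp [g, hj]]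
    refine (sum_le_sum (g := fun _ => (4 : ℝ)) fun j hj => ?_).trans_eq ?_
    · have h := abs_le.1 (hf j (mem_range.1 (hA hj)))
      have h1 : (-2 : ℝ) ≤ f j := by exact_mod_cast h.1
      have h2 : (f j : ℝ) ≤ 2 := by exact_mod_cast h.2
      simp only [g, if_pos hj]
      nlinarith
    · rw [sum_const, nsmul_eq_mul, mul_comm]

end Vale.Agent.P033.PS
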