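import Vale.Agent.P033.PS.Stable
import Vale.Agent.P033.PS.Energy
import Vale.Agent.P033.Spectrum

/-!
# P033: the criterion with several primes

Let `T` be a set of primes of `u`, none a Wieferich base for another and none dividing `s - 1` for
a prime `s` of `u` unless `T` is a single prime, `t` the `T`-part of `u` and `L = u / t`. Every
nonzero residue-class part of a flat `x` modulo `∏ T` lies, up to a small factor, in the ideal
`(x, t ^ 2)`, so its energy is at least `t ^ 2`; by Parseval it is at most `4 N / ∏ T`.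
-/

open NumberField Finset

namespace Vale.Agent.P033.PS

open Vale.Agent.P033

section

variable {N : ℕ} [NeZero N] {K : Type*} [Field K] [NumberField K] [IsCyclotomicExtension {N} ℚ K]

omit [NumberField K] in
/-- An element of two coprime ideals `(x, a)` and `(x, b)` lies in `(x, a * b)`. -/
theorem mem_pair_mul {x a b y : 𝓞 K} (hab : IsCoprime a b) (ha : y ∈ Ideal.span {x, a})
    (hb : y ∈ Ideal.span {x, b}) : y ∈ Ideal.span {x, a * b} := by
  obtain ⟨α, β, hαβ⟩ := hab
  obtain ⟨c, d, hcd⟩ := Ideal.mem_span_pair.1 ha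
  obtain ⟨c', d', hcd'⟩ := Ideal.mem_span_pair.1 hb
  rw [Ideal.mem_span_pair]
  refine ⟨α * a * c' + β * b * c, α * d' + β * d, ?_⟩
  linear_combination α * a * hcd' + β * b * hcd + y * hαβ

/-- A nonzero element of `(x, t ^ 2)`, where `t ^ 2` divides `x * cj x`, has log norm at least
that of `t`. -/
theorem log_le_lG {x w : 𝓞 K} {t : ℕ} (hx : ((t ^ 2 : ℕ) : 𝓞 K) ∣ x * cj N K x)
    (hw : w ≠ 0) (hmem : w ∈ Ideal.span {x, ((t ^ 2 : ℕ) : 𝓞 K)}) :
    (Fintype.card (ZMod N)ˣ : ℝ) * Real.log t ≤ lG N w := by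
  obtain ⟨α, β, h⟩ := Ideal.mem_span_pair.1 hmem
  set c : 𝓞 K := ((t ^ 2 : ℕ) : 𝓞 K)
  have hdvd : c ∣ w * cj N K w := by
    obtain ⟨z, hz⟩ := hx
    refine ⟨α * cj N K α * z + α * cj N K β * x + cj N K α * β * cj N K x + β * cj N K β * c, ?_⟩
    have hc : cj N K c = c := map_natCast _ _
    rw [← h, map_add, map_mul, map_mul, hc]
    linear_combination (α * cj N K α) * hz
  have hw' : cj N K w ≠ 0 := fun h0 => hw (gal_injective _ (h0.trans (map_zero _).symm))
  have := lG_le_of_dvd (N := N) (mul_ne_zero hw hw') hdvd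
  rw [lG_natCast, lG_mul hw hw', lG_cj, Nat.cast_pow, Real.log_pow] at this
  push_cast at this
  linarith

/-- The summed powers of a root of unity of order `P`. -/
theorem sum_om_pow {P : ℕ} [hP : Fact P.Prime] (hPN : P * P ∣ N) (m : ℕ) :
    ∑ i ∈ range P, (om N K P ^ m) ^ i = if P ∣ m then (P : 𝓞 K) else 0 := by
  split_ifs with h
  · simp [((om_prim (N := N) (K := K) hPN).pow_eq_one_iff_dvd m).2 h]
  · exact (((om_prim (N := N) (K := K) hPN).pow_of_coprime m
      ((Nat.Prime.coprime_iff_not_dvd hP.out).2 h).symm)).geom_sum_eq_zero hP.out.one_lt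

/-- The part of `∑ f j ζ ^ j` in the class of `k` modulo every prime of `T`. -/
noncomputable def part (N : ℕ) [NeZero N] (K : Type*) [Field K] [NumberField K]
    [IsCyclotomicExtension {N} ℚ K] (f : ℕ → ℤ) (T : Finset ℕ) (k : ℕ) : 𝓞 K :=
  ∑ j ∈ (range N).filter (fun j => ∀ P ∈ T, j % P = k % P), (f j : 𝓞 K) * zO N K ^ j

theorem class_iff {P : ℕ} (hP : 0 < P) (j k : ℕ) : P ∣ P - k % P + j ↔ j % P = k % P := by
  have hle : k % P ≤ P := (Nat.mod_lt k hP).le
  rw [← ZMod.natCast_eq_zero_iff, Nat.cast_add, Nat.cast_sub hle, ZMod.natCast_self, zero_sub,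
    ZMod.natCast_mod, neg_add_eq_zero, ← Nat.ModEq, ← ZMod.natCast_eq_natCast_iff, eq_comm]

/-- The twisted orbit of a fixed multiple of a part. -/
theorem iterate_part {P : ℕ} [hP : Fact P.Prime] (hPN : P * P ∣ N) (n : ℕ) {c : 𝓞 K}
    (hc : sg K hPN c = c) (A : Finset ℕ) (f : ℕ → ℤ) (i : ℕ) :
    (fun y => om N K P ^ n * sg K hPN y)^[i] (c * ∑ j ∈ A, (f j : 𝓞 K) * zO N K ^ j) =
      c * ∑ j ∈ A, (f j : 𝓞 K) * zO N K ^ j * (om N K P ^ (n + j)) ^ i := by
  have hom : sg K hPN (om N K P) = om N K P := by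
    have := sg_w (K := K) hPN (1 : ZMod P)
    rwa [w, ZMod.val_one, pow_one] at this
  induction i with
  | zero => simp
  | succ i ih =>
    rw [Function.iterate_succ_apply', ih, map_mul, hc, map_sum, mul_sum, mul_sum, mul_sum]
    refine sum_congr rfl fun j _ => ?_
    rw [map_mul, map_mul, map_intCast, map_pow, sg_zO, map_pow, map_pow, hom]
    ring

end

variable {u : ℕ}

/-- The `T`-part of `u`. -/
noncomputable def partU (u : ℕ) (T : Finset ℕ) : ℕ := ∏ P ∈ T, P ^ u.factorization P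

theorem partU_dvd (hu : u ≠ 0) {T : Finset ℕ} (hT : T ⊆ u.primeFactors) : partU u T ∣ u := by
  conv_rhs => rw [← Nat.prod_factorization_pow_eq_self hu, Finsupp.prod]
  exact prod_dvd_prod_of_subset _ _ _ (by simpa using hT)

theorem partU_ne_zero {T : Finset ℕ} (hT : T ⊆ u.primeFactors) : partU u T ≠ 0 :=
  prod_ne_zero_iff.2 fun _ hP => pow_ne_zero _ (Nat.prime_of_mem_primeFactors (hT hP)).ne_zero

/-- The congruences modulo all primes of `T` are one modulo their product. -/
theorem classes_iff {T : Finset ℕ} (hT : ∀ P ∈ T, P.Prime) (j k : ℕ) :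
    (∀ P ∈ T, j % P = k % P) ↔ j ≡ k [MOD ∏ P ∈ T, P] := by
  constructor
  · intro h
    rw [Nat.modEq_iff_dvd, Int.natCast_dvd]
    refine Finset.prod_primes_dvd _ (fun P hP => (hT P hP).prime) fun P hP => ?_
    rw [← Int.natCast_dvd]
    exact Nat.modEq_iff_dvd.1 (h P hP)
  · exact fun h P hP => Nat.ModEq.of_dvd (dvd_prod_of_mem (fun x => x) hP) h

/-- `2 * log P ≤ P * log 2` from `4` on. -/
theorem two_log_le {P : ℕ} (hP : 4 ≤ P) : 2 * Real.log P ≤ P * Real.log 2 := by
  have h : P ^ 2 ≤ 2 ^ P := by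
    induction P, hP using Nat.le_induction with
    | base => norm_num
    | succ n hn ih => rw [pow_succ 2 n]; nlinarith
  have h' := Real.log_le_log (by positivity : (0 : ℝ) < ((P ^ 2 : ℕ) : ℝ)) (Nat.cast_le.2 h)
  push_cast at h'
  rw [Real.log_pow, Real.log_pow] at h'
  push_cast at h'
  exact h'

variable {N : ℕ} [NeZero N] {K : Type*} [Field K] [NumberField K] [IsCyclotomicExtension {N} ℚ K]

/-- **The criterion**, on a flat element of the cyclotomic field. -/
theorem crit_field (T : Finset ℕ) (hT : T ⊆ u.primeFactors) (h5 : ∀ P ∈ T, 5 ≤ P)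
    (hgood : ∀ P ∈ T, ∀ q ∈ T, q ≠ P →
      q ^ (P - 1) % P ^ 2 ≠ 1 ∧ ∀ s ∈ u.primeFactors, ¬ P ∣ s - 1)
    (hlt : 2 ^ (#T + 2) * u * (u / partU u T) ^ 2 < (∏ P ∈ T, P) * u.totient)
    (hN : N = u ^ 2) {f : ℕ → ℤ} (hf : ∀ j < N, |f j| ≤ 2)
    (hx : (∑ j ∈ range N, (f j : 𝓞 K) * zO N K ^ j) *
      cj N K (∑ j ∈ range N, (f j : 𝓞 K) * zO N K ^ j) = (u : 𝓞 K) ^ 2) : False := by
  classical
  set x := ∑ j ∈ range N, (f j : 𝓞 K) * zO N K ^ j with hxdef
  have hu0 : u ≠ 0 := fun h => NeZero.ne N (by rw [hN, h]; rfl)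
  have hx0 : x ≠ 0 := fun h => pow_ne_zero 2 (Nat.cast_ne_zero.2 hu0 : (u : 𝓞 K) ≠ 0) (by
    rw [← hx, h, zero_mul])
  set t := partU u T
  have ht0 : t ≠ 0 := partU_ne_zero hT
  obtain ⟨L, hL⟩ := partU_dvd hu0 hT
  have hL' : u / t = L := Nat.div_eq_of_eq_mul_right (Nat.pos_of_ne_zero ht0) hL
  have hpT : ∀ P ∈ T, P.Prime := fun P hP => Nat.prime_of_mem_primeFactors (hT hP)
  set c : 𝓞 K := ((t ^ 2 : ℕ) : 𝓞 K)
  have hcx : c ∣ x * cj N K x := by
    rw [hx, ← Nat.cast_pow]
    exact Nat.cast_dvd_cast ⟨L ^ 2, by rw [hL]; ring⟩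
  set J : Ideal (𝓞 K) := Ideal.span {x, c}
  set M : ℕ → ℕ := fun P => N / P ^ (2 * u.factorization P)
  have hexp : ∀ P ∈ T, 2 ≤ 2 * u.factorization P := fun P hP => by
    have := (Nat.Prime.factorization_pos_of_dvd (hpT P hP) hu0
      (Nat.dvd_of_mem_primeFactors (hT hP)))
    omega
  have hfac : ∀ P, N.factorization P = 2 * u.factorization P := fun P => by
    rw [hN, Nat.factorization_pow]; simp
  have hNP : ∀ P, N = P ^ (2 * u.factorization P) * M P := fun P =>
    (Nat.mul_div_cancel' (hfac P ▸ Nat.ordProj_dvd N P)).symm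
  have hMP : ∀ P ∈ T, ¬ P ∣ M P := fun P hP => by
    have := Nat.not_dvd_ordCompl (hpT P hP) (NeZero.ne N)
    rwa [hfac] at this
  have hMdvd : ∀ P ∈ T, ∀ Q ∈ T, Q ≠ P → P ∣ M Q := fun P hP Q hQ hne => by
    have h1 : P ∣ N := (Nat.dvd_of_mem_primeFactors (hT hP)).trans (hN ▸ dvd_pow_self u two_ne_zero)
    rw [hNP Q] at h1
    exact ((hpT P hP).dvd_mul.1 h1).resolve_left fun h =>
      hne ((Nat.prime_dvd_prime_iff_eq (hpT P hP) (hpT Q hQ)).1
        ((hpT P hP).dvd_of_dvd_pow h)).symm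
  have hsM : ∀ P, ∀ s ∈ (M P).primeFactors, s ∈ u.primeFactors := fun P s hs => by
    rw [← Nat.primeFactors_pow u two_ne_zero, ← hN]
    exact Nat.primeFactors_mono (Dvd.intro_left _ (hNP P).symm) (NeZero.ne N) hs
  set Wp : Finset ℕ → 𝓞 K := fun T' => ∏ P ∈ T', pi N K (M P) ^ (P - 1)
  have hpi0 : ∀ P ∈ T, pi N K (M P) ≠ 0 := fun P hP => by
    have := Fact.mk (hpT P hP)
    exact pi_ne_zero (hNP P) (hexp P hP)
  have hmain : ∀ T' ⊆ T, ∀ k, Wp T' * part N K f T' k ∈ J := by
    intro T'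
    induction T' using Finset.induction_on with
    | empty =>
      intro _ k
      simp only [Wp, part, prod_empty, one_mul, notMem_empty, IsEmpty.forall_iff, implies_true,
        filter_true]
      exact Ideal.subset_span (Set.mem_insert _ _)
    | insert P T₀ hP₀ ih =>
      intro hsub k
      have hPT : P ∈ T := hsub (mem_insert_self _ _)
      have hsub₀ : T₀ ⊆ T := fun Q hQ => hsub (mem_insert_of_mem hQ)
      have := Fact.mk (hpT P hPT)
      have he := hexp P hPT
      have hP2 : P ≠ 2 := by have := h5 P hPT; omega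
      have hPN := dvd_sq (hNP P) he
      set σ := sg K hPN
      have hσI : ∀ I : Ideal (𝓞 K), I.IsPrime → ∀ q ∈ T, (q : 𝓞 K) ∈ I → ∀ y ∈ I, σ y ∈ I :=
        fun I hI q hq hqI y hy => sg_mem (hNP P) he hP2 (hMP P hPT) (hpT q hq)
          (by
            by_cases h : q = P
            · exact Or.inl h
            · exact Or.inr ⟨(hgood P hPT q hq h).1,
                fun s hs => (hgood P hPT q hq h).2 s (hsM P s hs)⟩) hI hqI hy
      set t' := partU u (T.erase P)
      have htt : t = P ^ u.factorization P * t' := (mul_prod_erase T _ hPT).symm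
      set a : 𝓞 K := ((P ^ (2 * u.factorization P) : ℕ) : 𝓞 K)
      set b : 𝓞 K := ((t' ^ 2 : ℕ) : 𝓞 K)
      have hcab : c = a * b := by
        have e : t ^ 2 = P ^ (2 * u.factorization P) * t' ^ 2 := by rw [htt]; ring
        simp only [c, a, b]
        rw [e, Nat.cast_mul]
      have hcopP : Nat.Coprime P (t' ^ 2) := Nat.Coprime.pow_right _ (Nat.Coprime.prod_right
        fun Q hQ => Nat.Coprime.pow_right _ ((Nat.coprime_primes (hpT P hPT)
          (hpT Q (mem_of_mem_erase hQ))).2 (ne_of_mem_erase hQ).symm))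
      have hPb : IsCoprime (P : 𝓞 K) b := by
        have := (Nat.isCoprime_iff_coprime.2 hcopP).map (Int.castRingHom (𝓞 K))
        simpa [b] using this
      have hab : IsCoprime a b := by
        have := hPb.pow_left (m := 2 * u.factorization P)
        rwa [← Nat.cast_pow] at this
      set z := Wp T₀ * part N K f T₀ k with hz_def
      have hz : z ∈ J := ih hsub₀ k
      obtain ⟨p, q, hpq⟩ := Ideal.mem_span_pair.1 hz
      have hza : z ∈ Ideal.span {x, a} :=
        Ideal.mem_span_pair.2 ⟨p, q * b, by rw [← hpq, hcab]; ring⟩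
      have hzb : z ∈ Ideal.span {x, b} :=
        Ideal.mem_span_pair.2 ⟨p, q * a, by rw [← hpq, hcab]; ring⟩
      have hne : ∀ y : 𝓞 K, Ideal.span {x, y} ≠ ⊥ := fun y h =>
        hx0 (Ideal.mem_bot.1 (h ▸ Ideal.subset_span (Set.mem_insert x {y})))
      set n := P - k % P
      -- the orbit sum is the part of the finer class
      have hWpfix : σ (Wp T₀) = Wp T₀ := by
        simp only [Wp, σ, map_prod, map_pow]
        refine prod_congr rfl fun Q hQ => ?_
        congr 1
        have hdvd := hMdvd P hPT Q (hsub₀ hQ) (fun h => hP₀ (h ▸ hQ))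
        rw [pi, map_sub, map_pow, map_one, sg_zO, mul_pow,
          ((om_prim (N := N) (K := K) hPN).pow_eq_one_iff_dvd _).2 hdvd, mul_one]
      set A := (range N).filter (fun j => ∀ Q ∈ T₀, j % Q = k % Q)
      have hins : (range N).filter (fun j => ∀ Q ∈ insert P T₀, j % Q = k % Q) =
          A.filter fun j => P ∣ n + j := by
        simp only [A, filter_filter]
        refine filter_congr fun j _ => ?_
        rw [class_iff (hpT P hPT).pos, forall_mem_insert, and_comm]
      have horb : ∑ i ∈ range P, (fun y => om N K P ^ n * σ y)^[i] z =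
          (P : 𝓞 K) * (Wp T₀ * part N K f (insert P T₀) k) := by
        simp only [z, part, σ, iterate_part hPN n hWpfix]
        rw [← mul_sum, sum_comm, hins, mul_left_comm]
        congr 1
        rw [sum_filter (s := A), mul_sum]
        refine sum_congr rfl fun j _ => ?_
        rw [← mul_sum, sum_om_pow hPN]
        split_ifs <;> ring
      set w := Wp T₀ * part N K f (insert P T₀) k
      have hgoal : Wp (insert P T₀) * part N K f (insert P T₀) k = pi N K (M P) ^ (P - 1) * w := by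
        simp only [Wp, w, prod_insert hP₀, mul_assoc]
      rw [hgoal]
      -- away from `P`
      have hσb : ∀ y ∈ Ideal.span {x, b}, σ y ∈ Ideal.span {x, b} :=
        map_mem σ _ (hne b) fun I hI hle y hy => by
          have hb : ((t' ^ 2 : ℕ) : 𝓞 K) ∈ I :=
            hle (Ideal.subset_span (Set.mem_insert_of_mem _ rfl))
          rw [Nat.cast_pow] at hb
          have hb' := hI.mem_of_pow_mem _ hb
          rw [show t' = ∏ Q ∈ T.erase P, Q ^ u.factorization Q from rfl, Nat.cast_prod,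
            hI.prod_mem_iff] at hb'
          obtain ⟨Q, hQ, hQI⟩ := hb'
          rw [Nat.cast_pow] at hQI
          exact hσI I hI Q (mem_of_mem_erase hQ) (hI.mem_of_pow_mem _ hQI) y hy
      have hPw : (P : 𝓞 K) * w ∈ Ideal.span {x, b} := by
        rw [← horb]
        refine sum_mem fun i hi => ?_
        clear hi
        induction i with
        | zero => exact hzb
        | succ i ihi =>
          rw [Function.iterate_succ_apply']
          exact Ideal.mul_mem_left _ _ (hσb _ ihi)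
      have hwb : pi N K (M P) ^ (P - 1) * w ∈ Ideal.span {x, b} := by
        obtain ⟨α, β, hαβ⟩ := hPb
        have hw1 : w ∈ Ideal.span {x, b} := by
          rw [show w = α * ((P : 𝓞 K) * w) + β * w * b by linear_combination (-w) * hαβ]
          exact add_mem (Ideal.mul_mem_left _ _ hPw)
            (Ideal.mul_mem_left _ _ (Ideal.subset_span (Set.mem_insert_of_mem _ rfl)))
        exact Ideal.mul_mem_left _ _ hw1
      -- at `P`
      have hwa : pi N K (M P) ^ (P - 1) * w ∈ Ideal.span {x, a} :=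
        pi_mul_mem (hNP P) he (hne a) (fun I hI hle => by
          have ha : ((P ^ (2 * u.factorization P) : ℕ) : 𝓞 K) ∈ I :=
            hle (Ideal.subset_span (Set.mem_insert_of_mem _ rfl))
          rw [Nat.cast_pow] at ha
          exact pi_mem (hNP P) he hI (hI.mem_of_pow_mem _ ha)) n hza horb
      have := mem_pair_mul hab hwa hwb
      rwa [← hcab] at this
  -- some class carries a nonzero part
  set r := ∏ P ∈ T, P with hr_def
  have hr0 : 0 < r := Finset.prod_pos fun P hP => (hpT P hP).pos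
  obtain ⟨k, hk, hD⟩ : ∃ k ∈ range r, part N K f T k ≠ 0 := by
    by_contra h
    push Not at h
    refine hx0 ?_
    rw [hxdef, ← sum_fiberwise_of_maps_to (t := range r) (g := fun j => j % r)
      fun j _ => mem_range.2 (Nat.mod_lt _ hr0)]
    refine sum_eq_zero fun k hk => ?_
    rw [← h k hk, part]
    refine sum_congr (filter_congr fun j _ => ?_) fun _ _ => rfl
    rw [classes_iff hpT, Nat.ModEq, Nat.mod_eq_of_lt (mem_range.1 hk)]
  set D := part N K f T k
  have hWp0 : Wp T ≠ 0 := prod_ne_zero_iff.2 fun P hP => pow_ne_zero _ (hpi0 P hP)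
  set d : ℝ := (Fintype.card (ZMod N)ˣ : ℝ) with hd_def
  have hd0 : 0 ≤ d := Nat.cast_nonneg _
  have h1 := log_le_lG hcx (mul_ne_zero hWp0 hD) (hmain T subset_rfl k)
  have h2 : 2 * lG N (Wp T) ≤ (#T : ℝ) * (d * Real.log 2) := by
    rw [lG_prod _ _ fun P hP => pow_ne_zero _ (hpi0 P hP), mul_sum, ← nsmul_eq_mul, ← sum_const]
    refine sum_le_sum fun P hP => ?_
    have := Fact.mk (hpT P hP)
    have h := lG_pi_le (K := K) (hNP P) (hexp P hP)
    have h' := mul_le_mul_of_nonneg_left (two_log_le (P := P) (by have := h5 P hP; omega)) hd0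
    rw [lG_pow]
    refine le_of_mul_le_mul_right ?_ (by exact_mod_cast (hpT P hP).pos : (0 : ℝ) < P)
    rw [← hd_def] at h
    linarith
  have hC : (0 : ℝ) < (t : ℝ) ^ 2 / 2 ^ #T := by
    have : (0 : ℝ) < t := by exact_mod_cast Nat.pos_of_ne_zero ht0
    positivity
  have hlow : d * ((t : ℝ) ^ 2 / 2 ^ #T) ≤
      (N : ℝ) * (4 * #((range N).filter fun j => ∀ P ∈ T, j % P = k % P)) := by
    refine le_trans (energy_lower hD hC ?_) (energy_upper _ (filter_subset _ _) f hf)
    rw [Real.log_div (pow_ne_zero 2 (Nat.cast_ne_zero.2 ht0)) (pow_ne_zero _ two_ne_zero),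
      Real.log_pow, Real.log_pow]
    rw [lG_mul hWp0 hD, ← hd_def] at h1
    rw [← hd_def]
    push_cast
    linarith
  have hrN : r ∣ N := by
    rw [hN]
    refine dvd_trans (Finset.prod_primes_dvd _ (fun P hP => (hpT P hP).prime)
      fun P hP => Nat.dvd_of_mem_primeFactors (hT hP)) (dvd_pow_self u two_ne_zero)
  have hcard : #((range N).filter fun j => ∀ P ∈ T, j % P = k % P) ≤ N / r := by
    refine le_of_le_of_eq (card_le_card_of_injOn (fun j => j / r) (t := range (N / r))
      (fun j hj => ?_) fun j hj l hl e => ?_) (card_range _)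
    · have := mem_range.1 (mem_filter.1 hj).1
      exact mem_range.2 (Nat.div_lt_div_of_lt_of_dvd hrN this)
    · have e1 := (classes_iff hpT j k).1 (mem_filter.1 hj).2
      have e2 := (classes_iff hpT l k).1 (mem_filter.1 hl).2
      have e3 : j % r = l % r := e1.trans e2.symm
      have e4 : j / r = l / r := e
      rw [← Nat.div_add_mod j r, ← Nat.div_add_mod l r, e3, e4]
  have htotN : N.totient = u * u.totient := by
    have h := Nat.totient_gcd_mul_totient_mul u u
    rw [Nat.gcd_self] at h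
    rw [hN, sq]
    exact Nat.eq_of_mul_eq_mul_left (Nat.totient_pos.2 (Nat.pos_of_ne_zero hu0))
      (by rw [h]; ring)
  have hreal : ((u * u.totient * t ^ 2 * r : ℕ) : ℝ) ≤ ((2 ^ (#T + 2) * u ^ 4 : ℕ) : ℝ) := by
    have hc' : ((#((range N).filter fun j => ∀ P ∈ T, j % P = k % P) * r : ℕ) : ℝ) ≤ (N : ℝ) :=
      Nat.cast_le.2 ((Nat.mul_le_mul_right r hcard).trans (Nat.div_mul_le_self N r))
    rw [hd_def, ZMod.card_units_eq_totient, htotN, mul_div_assoc', div_le_iff₀ (by positivity)]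
      at hlow
    push_cast at hlow hc' ⊢
    have hNu : (N : ℝ) = (u : ℝ) ^ 2 := by exact_mod_cast hN
    calc (u : ℝ) * u.totient * (t : ℝ) ^ 2 * r
        ≤ (N : ℝ) * (4 * #((range N).filter fun j => ∀ P ∈ T, j % P = k % P)) * 2 ^ #T * r :=
          mul_le_mul_of_nonneg_right hlow (Nat.cast_nonneg r)
      _ = 4 * 2 ^ #T * (N : ℝ) *
          ((#((range N).filter fun j => ∀ P ∈ T, j % P = k % P) : ℝ) * r) := by ring
      _ ≤ 4 * 2 ^ #T * (N : ℝ) * N := mul_le_mul_of_nonneg_left hc' (by positivity)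
      _ = _ := by rw [hNu]; ring
  have hnat : u * u.totient * t ^ 2 * r ≤ 2 ^ (#T + 2) * u ^ 4 := by exact_mod_cast hreal
  rw [hL'] at hlt
  have hpos : 0 < u * t ^ 2 := by positivity
  have e : 2 ^ (#T + 2) * u ^ 4 = u * t ^ 2 * (2 ^ (#T + 2) * u * L ^ 2) := by rw [hL]; ring
  rw [e, show u * u.totient * t ^ 2 * r = u * t ^ 2 * (r * u.totient) by ring] at hnat
  exact absurd (Nat.le_of_mul_le_mul_left hnat hpos) (not_le.2 hlt)

/-- **The criterion.** -/
theorem no_CH_of_set (T : Finset ℕ) (hT : T ⊆ u.primeFactors) (h5 : ∀ P ∈ T, 5 ≤ P)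
    (hgood : ∀ P ∈ T, ∀ q ∈ T, q ≠ P →
      q ^ (P - 1) % P ^ 2 ≠ 1 ∧ ∀ s ∈ u.primeFactors, ¬ P ∣ s - 1)
    (hlt : 2 ^ (#T + 2) * u * (u / partU u T) ^ 2 < (∏ P ∈ T, P) * u.totient) :
    ¬ IsCHOrder (4 * u ^ 2) := by
  intro hCH
  have hu0 : u ≠ 0 := fun h => by simp [h] at hlt
  obtain ⟨f, hf, hflat⟩ := exists_flat hu0 hCH
  have : NeZero (u ^ 2) := ⟨pow_ne_zero 2 hu0⟩
  have : NeZero ((u ^ 2 : ℕ) : ℚ) := ⟨Nat.cast_ne_zero.2 (pow_ne_zero 2 hu0)⟩
  have : IsCyclotomicExtension {u ^ 2} ℚ (CyclotomicField (u ^ 2) ℚ) :=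
    CyclotomicField.isCyclotomicExtension (u ^ 2) ℚ
  refine crit_field (K := CyclotomicField (u ^ 2) ℚ) T hT h5 hgood hlt rfl hf ?_
  have h := hflat (𝓞 (CyclotomicField (u ^ 2) ℚ)) (zO (u ^ 2) _) (cj (u ^ 2) _ (zO (u ^ 2) _))
    zO_pow (by rw [mul_comm]; exact cj_zO_mul)
  rw [map_sum]
  simp only [map_mul, map_intCast, map_pow]
  exact h

/-- The case of a single prime. -/
theorem no_CH_prime_power {P a v : ℕ} (hP : P.Prime) (ha : 0 < a) (hPv : ¬ P ∣ v)
    (hlt : 8 * v ^ 3 < (P - 1) * v.totient) : ¬ IsCHOrder (4 * (P ^ a * v) ^ 2) := by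
  have hv0 : v ≠ 0 := fun h => hPv (h ▸ dvd_zero P)
  have hu0 : P ^ a * v ≠ 0 := mul_ne_zero (pow_ne_zero _ hP.ne_zero) hv0
  have hfac : (P ^ a * v).factorization P = a := by
    rw [Nat.factorization_mul (pow_ne_zero _ hP.ne_zero) hv0, Finsupp.add_apply,
      Nat.factorization_eq_zero_of_not_dvd hPv, hP.factorization_pow, Finsupp.single_eq_same,
      add_zero]
  have hmem : P ∈ (P ^ a * v).primeFactors :=
    Nat.mem_primeFactors.2 ⟨hP, dvd_mul_of_dvd_left (dvd_pow_self P ha.ne') v, hu0⟩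
  have h5 : 5 ≤ P := by
    by_contra h
    have h1 : (P - 1) * v.totient ≤ 3 * v := Nat.mul_le_mul (by omega) (Nat.totient_le v)
    have h2 : v ≤ v ^ 3 := Nat.le_self_pow (by norm_num) v
    omega
  refine no_CH_of_set {P} (singleton_subset_iff.2 hmem) (by simpa using h5)
    (fun Q hQ q hq hne => absurd ((mem_singleton.1 hq).trans (mem_singleton.1 hQ).symm) hne) ?_
  simp only [partU, prod_singleton, card_singleton, hfac]
  rw [Nat.mul_div_cancel_left _ (pow_pos hP.pos a),
    Nat.totient_mul (Nat.Coprime.pow_left a ((Nat.Prime.coprime_iff_not_dvd hP).2 hPv)),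
    Nat.totient_prime_pow hP ha]
  calc 2 ^ (1 + 2) * (P ^ a * v) * v ^ 2 = P ^ a * (8 * v ^ 3) := by ring
    _ < P ^ a * ((P - 1) * v.totient) := Nat.mul_lt_mul_of_pos_left hlt (pow_pos hP.pos a)
    _ = P * (P ^ (a - 1) * (P - 1) * v.totient) := by
      conv_lhs => rw [← Nat.sub_add_cancel ha, pow_succ']
      ring

end Vale.Agent.P033.PS
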