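import Vale.Agent.P033.Wieferich

/-!
# P033: Wieferich events and their Dirichlet series

An event is a product `m * a` of two numbers of comparable size built from large primes, with
`a ^ (p - 1) = 1` modulo `p ^ 2` for all primes `p` of `m`, or `a = 1` modulo `m`. Products of a
bounded number of such `a` are few modulo `m ^ 2`, so the events are rare.
-/

open Finset
open scoped Classical

namespace Vale.Agent.P033.PS

/-- All prime factors exceed `B`. -/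
def Big (B n : ℕ) : Prop := n ≠ 0 ∧ ∀ p, p.Prime → p ∣ n → B < p

/-- An event number. -/
def Ev (B s : ℕ) : Prop :=
  ∃ m a : ℕ, s = m * a ∧ Squarefree m ∧ Big B m ∧ Big B a ∧ 1 < m ∧ 1 < a ∧
    m ≤ a ^ 24 ∧ a ≤ m ^ 24 ∧
    ((∀ p ∈ m.primeFactors, a ^ (p - 1) % p ^ 2 = 1) ∨ a % m = 1)

/-- A product of event numbers. -/
inductive EvProd (B : ℕ) : ℕ → Prop
  | one : EvProd B 1
  | mul {s D : ℕ} : Ev B s → EvProd B D → EvProd B (s * D)

theorem Ev.pos {B s : ℕ} (h : Ev B s) : 0 < s := by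
  obtain ⟨m, a, rfl, -, -, -, hm, ha, -⟩ := h
  positivity

theorem EvProd.pos {B D : ℕ} (h : EvProd B D) : 0 < D := by
  induction h with
  | one => exact one_pos
  | mul hs _ ih => exact Nat.mul_pos hs.pos ih

/-- The roots of all the congruences modulo `m ^ 2` number at most `m`. -/
theorem card_roots_sqfree {B m : ℕ} (hB : 2 ≤ B) (hm : Squarefree m) (hBm : Big B m) :
    #((range (m ^ 2)).filter fun c => ∀ p ∈ m.primeFactors, c ^ (p - 1) % p ^ 2 = 1) ≤ m := by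
  have hprod : ∏ p ∈ m.primeFactors, p = m := Nat.prod_primeFactors_of_squarefree hm
  calc #((range (m ^ 2)).filter fun c => ∀ p ∈ m.primeFactors, c ^ (p - 1) % p ^ 2 = 1)
      ≤ #(m.primeFactors.pi fun p => (range (p ^ 2)).filter fun c => c ^ (p - 1) % p ^ 2 = 1) := by
        refine card_le_card_of_injOn (fun c p _ => c % p ^ 2) (fun c hc => ?_) fun c hc d hd e => ?_
        · refine mem_pi.2 fun p hp => ?_
          have hpp := Nat.prime_of_mem_primeFactors hp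
          refine mem_filter.2 ⟨mem_range.2 (Nat.mod_lt _ (pow_pos hpp.pos 2)), ?_⟩
          rw [← Nat.pow_mod]
          exact (mem_filter.1 hc).2 p hp
        · have hlt1 := mem_range.1 (mem_filter.1 hc).1
          have hlt2 := mem_range.1 (mem_filter.1 hd).1
          refine Nat.ModEq.eq_of_lt_of_lt (Nat.modEq_iff_dvd.2 ?_) hlt1 hlt2
          rw [← hprod, ← prod_pow, Nat.cast_prod]
          refine Finset.prod_dvd_of_coprime (fun p hp q hq hpq => ?_) fun p hp => ?_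
          · exact Nat.isCoprime_iff_coprime.2 (Nat.Coprime.pow 2 2 ((Nat.coprime_primes
              (Nat.prime_of_mem_primeFactors hp) (Nat.prime_of_mem_primeFactors hq)).2 hpq))
          · exact Nat.modEq_iff_dvd.1 (congr_fun (congr_fun e p) hp)
    _ = ∏ p ∈ m.primeFactors, #((range (p ^ 2)).filter fun c => c ^ (p - 1) % p ^ 2 = 1) :=
        card_pi _ _
    _ ≤ ∏ p ∈ m.primeFactors, p := prod_le_prod (fun _ _ => Nat.zero_le _) fun p hp =>
        card_roots_le (Nat.prime_of_mem_primeFactors hp) (by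
          have := hBm.2 p (Nat.prime_of_mem_primeFactors hp) (Nat.dvd_of_mem_primeFactors hp)
          omega)
    _ = m := hprod

/-- The residues congruent to `1` modulo `m` below `m ^ 2` number at most `m`. -/
theorem card_one_mod {m : ℕ} : #((range (m ^ 2)).filter fun c => c % m = 1) ≤ m := by
  refine le_of_le_of_eq (card_le_card_of_injOn (fun c => c / m) (t := range m) (fun c hc => ?_)
    fun c hc d hd e => ?_) (card_range m)
  · exact mem_range.2 (Nat.div_lt_of_lt_mul (by rw [← sq]; exact mem_range.1 (mem_filter.1 hc).1))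
  · have e1 := (mem_filter.1 hc).2
    have e2 := (mem_filter.1 hd).2
    have e3 : c / m = d / m := e
    rw [← Nat.div_add_mod c m, ← Nat.div_add_mod d m, e1, e2, e3]

/-- The divisors of a number built from large primes are few. -/
theorem divisors_pow_le {B M n : ℕ} (hB : 2 ^ M ≤ B) (hn : Big B n) :
    #n.divisors ^ M ≤ n := by
  rw [Nat.card_divisors hn.1, ← prod_pow]
  conv_rhs => rw [← Nat.prod_factorization_pow_eq_self hn.1]
  rw [Finsupp.prod, Nat.support_factorization]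
  refine prod_le_prod (fun _ _ => Nat.zero_le _) fun p hp => ?_
  calc (n.factorization p + 1) ^ M ≤ (2 ^ n.factorization p) ^ M :=
        Nat.pow_le_pow_left Nat.lt_two_pow_self M
    _ = (2 ^ M) ^ n.factorization p := by rw [← pow_mul, ← pow_mul, mul_comm]
    _ ≤ p ^ n.factorization p := Nat.pow_le_pow_left (hB.trans (hn.2 p
        (Nat.prime_of_mem_primeFactors hp) (Nat.dvd_of_mem_primeFactors hp)).le) _

/-- A multiplicative condition with few residues modulo `m ^ 2` holds for few numbers. -/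
theorem count_mult {B M m k S : ℕ} (hB : 2 ^ M ≤ B) (hm : 1 < m) (Q : ℕ → Prop)
    (hQone : Q 1) (hQmul : ∀ a b, Q a → Q b → Q (a * b))
    (hQmod : ∀ a, Q a → Q (a % m ^ 2)) (hQcard : #((range (m ^ 2)).filter Q) ≤ m)
    (hS : m ^ 2 ≤ S ^ k) :
    ∃ F : ℕ, #((Icc 1 S).filter fun a => Big B a ∧ Q a) ^ k * m ≤ F * (2 * S ^ k) ∧
      F ^ M ≤ (S ^ k) ^ k := by
  set A := (Icc 1 S).filter fun a => Big B a ∧ Q a
  set W := Fintype.piFinset (fun _ : Fin k => A) with hW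
  rcases W.eq_empty_or_nonempty with he | hne
  · refine ⟨0, ?_, ?_⟩
    · have : #W = #A ^ k := by simp [hW]
      rw [he, card_empty] at this
      rw [← this, zero_mul, zero_mul]
    · rcases Nat.eq_zero_or_pos M with rfl | hM
      · simpa using Nat.one_le_pow _ _ (lt_of_lt_of_le (by positivity) hS)
      · rw [zero_pow hM.ne']; exact Nat.zero_le _
  set img := W.image fun t => ∏ i, t i
  have himg : img.Nonempty := hne.image _
  obtain ⟨n0, hn0, hmax⟩ := img.exists_max_image (fun n => #n.divisors) himg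
  refine ⟨#n0.divisors ^ k, ?_, ?_⟩
  · have hcard : #W = #A ^ k := by simp [hW]
    have h1 : #W ≤ #n0.divisors ^ k * img.card := by
      refine card_le_mul_card_image (f := fun t : Fin k → ℕ => ∏ i, t i) W _ fun b hb => ?_
      refine le_trans (card_le_card (t := Fintype.piFinset fun _ : Fin k => b.divisors) ?_) ?_
      · intro t ht
        obtain ⟨htW, rfl⟩ := mem_filter.1 ht
        refine Fintype.mem_piFinset.2 fun i => Nat.mem_divisors.2
          ⟨dvd_prod_of_mem t (mem_univ i), prod_ne_zero_iff.2 fun j _ => ?_⟩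
        exact (mem_filter.1 (Fintype.mem_piFinset.1 htW j)).2.1.1
      · simp only [Fintype.card_piFinset, prod_const, card_univ, Fintype.card_fin]
        exact Nat.pow_le_pow_left (hmax b hb) k
    have h2 : img.card ≤ #((range (m ^ 2)).filter Q) * (S ^ k / m ^ 2 + 1) := by
      rw [← card_range (S ^ k / m ^ 2 + 1), ← card_product]
      refine card_le_card_of_injOn (fun n => (n % m ^ 2, n / m ^ 2)) (fun n hn => ?_)
        fun a _ b _ e => ?_
      · obtain ⟨t, ht, rfl⟩ := mem_image.1 hn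
        have hA : ∀ i, t i ∈ A := Fintype.mem_piFinset.1 ht
        refine mem_product.2 ⟨mem_filter.2 ⟨mem_range.2 (Nat.mod_lt _ (by positivity)),
          hQmod _ ?_⟩, mem_range.2 (Nat.lt_succ_of_le (Nat.div_le_div_right ?_))⟩
        · exact prod_induction _ Q hQmul hQone fun i _ => (mem_filter.1 (hA i)).2.2
        · exact (prod_le_prod (fun _ _ => Nat.zero_le _) fun i _ =>
            (mem_Icc.1 (mem_filter.1 (hA i)).1).2).trans_eq (by simp)
      · simp only [Prod.mk.injEq] at e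
        rw [← Nat.div_add_mod a (m ^ 2), ← Nat.div_add_mod b (m ^ 2), e.1, e.2]
    have h3 : m * (m * (S ^ k / m ^ 2 + 1)) ≤ 2 * S ^ k := by
      have := Nat.mul_div_le (S ^ k) (m ^ 2)
      rw [← mul_assoc, ← sq, Nat.mul_add, mul_one, two_mul]
      exact Nat.add_le_add this hS
    calc #A ^ k * m ≤ #n0.divisors ^ k * (#((range (m ^ 2)).filter Q) *
          (S ^ k / m ^ 2 + 1)) * m := by
          rw [← hcard]
          exact Nat.mul_le_mul_right _ (h1.trans (Nat.mul_le_mul_left _ h2))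
      _ ≤ #n0.divisors ^ k * (m * (m * (S ^ k / m ^ 2 + 1))) := by
          rw [mul_assoc, mul_comm _ m]
          exact Nat.mul_le_mul_left _ (Nat.mul_le_mul_left _ (Nat.mul_le_mul_right _ hQcard))
      _ ≤ _ := Nat.mul_le_mul_left _ h3
  · obtain ⟨t, ht, rfl⟩ := mem_image.1 hn0
    have hA : ∀ i, t i ∈ A := Fintype.mem_piFinset.1 ht
    have hbig : Big B (∏ i, t i) :=
      ⟨prod_ne_zero_iff.2 fun j _ => (mem_filter.1 (hA j)).2.1.1, fun p hp hpd => by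
        obtain ⟨i, -, hi⟩ := (Prime.dvd_finsetProd_iff hp.prime _).1 hpd
        exact (mem_filter.1 (hA i)).2.1.2 p hp hi⟩
    rw [← pow_mul, mul_comm, pow_mul]
    refine Nat.pow_le_pow_left ((divisors_pow_le hB hbig).trans ?_) k
    exact (prod_le_prod (fun _ _ => Nat.zero_le _) fun i _ =>
      (mem_Icc.1 (mem_filter.1 (hA i)).1).2).trans_eq (by simp)

/-- The same, with real exponents. -/
theorem count_mult_real {B M m S : ℕ} (hM : 230400 ≤ M) (hB : 2 ^ M ≤ B) (hm : 1 < m)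
    (Q : ℕ → Prop) (hQone : Q 1) (hQmul : ∀ a b, Q a → Q b → Q (a * b))
    (hQmod : ∀ a, Q a → Q (a % m ^ 2)) (hQcard : #((range (m ^ 2)).filter Q) ≤ m)
    (hS1 : m ≤ S ^ 24) (hS2 : S ≤ m ^ 25) :
    (#((Icc 1 S).filter fun a => Big B a ∧ Q a) : ℝ) ≤
      2 * S * (m : ℝ) ^ (-(1 / 64) : ℝ) := by
  obtain ⟨F, h1, h2⟩ := count_mult (k := 48) hB hm Q hQone hQmul hQmod hQcard (by
    rw [show (48 : ℕ) = 24 * 2 from rfl, pow_mul]; exact Nat.pow_le_pow_left hS1 2)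
  set n := #((Icc 1 S).filter fun a => Big B a ∧ Q a)
  have hm0 : (0 : ℝ) < m := by exact_mod_cast (Nat.lt_trans one_pos hm)
  have hm1 : (1 : ℝ) ≤ m := by exact_mod_cast hm.le
  have hM0 : M ≠ 0 := by omega
  have hF : (F : ℝ) ≤ (m : ℝ) ^ (1 / 4 : ℝ) := by
    refine le_of_pow_le_pow_left₀ hM0 (by positivity) ?_
    rw [← Real.rpow_natCast ((m : ℝ) ^ (1 / 4 : ℝ)) M, ← Real.rpow_mul hm0.le]
    calc (F : ℝ) ^ M ≤ ((m : ℝ) ^ 25) ^ (48 * 48) := by
          rw [pow_mul ((m : ℝ) ^ 25) 48 48]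
          exact_mod_cast h2.trans (Nat.pow_le_pow_left (Nat.pow_le_pow_left hS2 48) 48)
      _ = (m : ℝ) ^ ((57600 : ℕ) : ℝ) := by rw [← pow_mul, Real.rpow_natCast]
      _ ≤ _ := Real.rpow_le_rpow_of_exponent_le hm1 (by
          have : (230400 : ℝ) ≤ M := by exact_mod_cast hM
          push_cast
          linarith)
  refine le_of_pow_le_pow_left₀ (n := 48) (by norm_num) (by positivity) ?_
  have h1' : (n : ℝ) ^ 48 * m ≤ F * (2 * (S : ℝ) ^ 48) := by exact_mod_cast h1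
  rw [mul_pow, mul_pow, ← Real.rpow_natCast ((m : ℝ) ^ (-(1 / 64) : ℝ)), ← Real.rpow_mul hm0.le,
    show (-(1 / 64) : ℝ) * ((48 : ℕ) : ℝ) = -(3 / 4 : ℝ) by push_cast; norm_num,
    Real.rpow_neg hm0.le, ← div_eq_mul_inv, le_div_iff₀ (by positivity)]
  have e : (m : ℝ) ^ (3 / 4 : ℝ) * (m : ℝ) ^ (1 / 4 : ℝ) = m := by
    rw [← Real.rpow_add hm0]; norm_num
  refine le_of_mul_le_mul_right ?_ (Real.rpow_pos_of_pos hm0 (1 / 4 : ℝ))
  rw [mul_assoc, e]
  calc (n : ℝ) ^ 48 * m ≤ F * (2 * (S : ℝ) ^ 48) := h1'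
    _ ≤ (m : ℝ) ^ (1 / 4 : ℝ) * ((2 : ℝ) ^ 48 * (S : ℝ) ^ 48) :=
        mul_le_mul hF (mul_le_mul_of_nonneg_right (by norm_num) (by positivity)) (by positivity)
          (by positivity)
    _ = _ := by ring

/-- The inner sum of the series of events. -/
theorem sum_a_le {B M m : ℕ} (hM : 230400 ≤ M) (hB : 2 ^ M ≤ B) (hm : 1 < m) (Q : ℕ → Prop)
    (hQone : Q 1) (hQmul : ∀ a b, Q a → Q b → Q (a * b))
    (hQmod : ∀ a, Q a → Q (a % m ^ 2)) (hQcard : #((range (m ^ 2)).filter Q) ≤ m)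
    (x : ℕ) :
    ∑ a ∈ (Icc 2 x).filter (fun a => Big B a ∧ Q a ∧ m ≤ a ^ 24 ∧ a ≤ m ^ 24),
      (a : ℝ) ^ (-(1 - 1 / 4000) : ℝ) ≤
      (24 * 4000 / Real.log 2 + 1) * (4 * (m : ℝ) ^ (25 / 4000 - 1 / 64 : ℝ)) := by
  set A := (Icc 2 x).filter fun a => Big B a ∧ Q a ∧ m ≤ a ^ 24 ∧ a ≤ m ^ 24 with hA
  have hm0 : (0 : ℝ) < m := by exact_mod_cast (Nat.lt_trans one_pos hm)
  have hm1 : (1 : ℝ) ≤ m := by exact_mod_cast hm.le
  set J := Nat.log 2 (m ^ 24) + 1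
  have hmaps : ∀ a ∈ A, Nat.log 2 a ∈ range J := fun a ha =>
    mem_range.2 (Nat.lt_succ_of_le (Nat.log_mono_right (mem_filter.1 ha).2.2.2.2))
  have hone : ∀ j ∈ range J, ∑ a ∈ A with Nat.log 2 a = j, (a : ℝ) ^ (-(1 - 1 / 4000) : ℝ) ≤
      4 * (m : ℝ) ^ (24 / 4000 - 1 / 64 : ℝ) := by
    intro j _
    rcases (A.filter fun a => Nat.log 2 a = j).eq_empty_or_nonempty with he | ⟨a0, ha0⟩
    · rw [he, sum_empty]; positivity
    have hfacts : ∀ a ∈ A.filter (fun a => Nat.log 2 a = j),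
        2 ^ j ≤ a ∧ a < 2 ^ (j + 1) ∧ m ≤ a ^ 24 ∧ a ≤ m ^ 24 ∧ Big B a ∧ Q a := by
      intro a ha
      obtain ⟨ha1, rfl⟩ := mem_filter.1 ha
      obtain ⟨ha2, h1, h2, h3, h4⟩ := mem_filter.1 ha1
      have := (mem_Icc.1 ha2).1
      exact ⟨Nat.pow_log_le_self 2 (by omega), Nat.lt_pow_succ_log_self one_lt_two a, h3, h4, h1, h2⟩
    obtain ⟨f1, f2, f3, f4, -, -⟩ := hfacts a0 ha0
    have hS2 : 2 ^ (j + 1) ≤ m ^ 25 := by
      rw [pow_succ', pow_succ' m 24]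
      exact Nat.mul_le_mul hm (f1.trans f4)
    have hcount := count_mult_real hM hB hm Q hQone hQmul hQmod hQcard
      (f3.trans (Nat.pow_le_pow_left f2.le 24)) hS2
    have hsub : A.filter (fun a => Nat.log 2 a = j) ⊆
        (Icc 1 (2 ^ (j + 1))).filter fun a => Big B a ∧ Q a := fun a ha => by
      obtain ⟨g1, g2, -, -, g5, g6⟩ := hfacts a ha
      exact mem_filter.2 ⟨mem_Icc.2 ⟨(Nat.one_le_two_pow).trans g1, g2.le⟩, g5, g6⟩
    have hj : (0 : ℝ) < (2 : ℝ) ^ j := by positivity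
    refine (sum_le_card_nsmul _ _ (((2 : ℝ) ^ j) ^ (-(1 - 1 / 4000) : ℝ)) fun a ha => ?_).trans ?_
    · exact Real.rpow_le_rpow_of_nonpos hj (by exact_mod_cast (hfacts a ha).1) (by norm_num)
    rw [nsmul_eq_mul]
    have hc := (Nat.cast_le (α := ℝ)).2 (card_le_card hsub) |>.trans hcount
    have h2j : ((2 : ℝ) ^ j) ^ (1 / 4000 : ℝ) ≤ (m : ℝ) ^ (24 / 4000 : ℝ) := by
      rw [show (24 / 4000 : ℝ) = ((24 : ℕ) : ℝ) * (1 / 4000) by norm_num, Real.rpow_mul hm0.le,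
        Real.rpow_natCast]
      exact Real.rpow_le_rpow hj.le (by exact_mod_cast f1.trans f4) (by norm_num)
    calc _ ≤ 2 * ((2 ^ (j + 1) : ℕ) : ℝ) * (m : ℝ) ^ (-(1 / 64) : ℝ) *
          ((2 : ℝ) ^ j) ^ (-(1 - 1 / 4000) : ℝ) := mul_le_mul_of_nonneg_right hc (by positivity)
      _ = 4 * ((2 : ℝ) ^ j) ^ (1 / 4000 : ℝ) * (m : ℝ) ^ (-(1 / 64) : ℝ) := by
        rw [show (1 / 4000 : ℝ) = 1 + -(1 - 1 / 4000) by norm_num, Real.rpow_add hj, Real.rpow_one]
        push_cast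
        ring_nf
      _ ≤ 4 * (m : ℝ) ^ (24 / 4000 : ℝ) * (m : ℝ) ^ (-(1 / 64) : ℝ) := by gcongr
      _ = _ := by rw [mul_assoc, ← Real.rpow_add hm0, ← sub_eq_add_neg]
  have hJ : (J : ℝ) ≤ (24 * 4000 / Real.log 2 + 1) * (m : ℝ) ^ (1 / 4000 : ℝ) := by
    have hl2 : (0 : ℝ) < Real.log 2 := Real.log_pos one_lt_two
    have h1 : (Nat.log 2 (m ^ 24) : ℝ) * Real.log 2 ≤ 24 * Real.log m := by
      have h := Nat.pow_log_le_self 2 (pow_ne_zero 24 (by omega : m ≠ 0))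
      have h' := Real.log_le_log (by positivity)
        ((Nat.cast_le (α := ℝ)).2 h)
      push_cast at h'
      rwa [Real.log_pow, Real.log_pow] at h'
    have h2 : Real.log m ≤ (m : ℝ) ^ (1 / 4000 : ℝ) / (1 / 4000) :=
      Real.log_le_rpow_div hm0.le (by norm_num)
    have h3 : (1 : ℝ) ≤ (m : ℝ) ^ (1 / 4000 : ℝ) := Real.one_le_rpow hm1 (by norm_num)
    have h4 : (Nat.log 2 (m ^ 24) : ℝ) ≤ 24 * 4000 / Real.log 2 * (m : ℝ) ^ (1 / 4000 : ℝ) := by
      rw [div_mul_eq_mul_div, le_div_iff₀ hl2]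
      linarith
    simp only [J, Nat.cast_add, Nat.cast_one, add_mul, one_mul]
    linarith
  rw [← sum_fiberwise_of_maps_to hmaps]
  refine (sum_le_card_nsmul _ _ _ hone).trans ?_
  rw [card_range, nsmul_eq_mul]
  refine (mul_le_mul_of_nonneg_right hJ (by positivity)).trans (le_of_eq ?_)
  rw [show (25 / 4000 - 1 / 64 : ℝ) = 1 / 4000 + (24 / 4000 - 1 / 64) by ring,
    Real.rpow_add hm0 (1 / 4000)]
  ring

/-- The sum over the events of bounded size is as small as we like for large `B`. -/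
theorem exists_small_events : ∃ B : ℕ, 2 ^ 16 ≤ B ∧ ∀ x : ℕ,
    ∑ s ∈ (Icc 1 x).filter (Ev B), (s : ℝ) ^ (-(1 - 1 / 4000) : ℝ) ≤ 1 / 2 := by
  obtain ⟨M, hM⟩ : ∃ M : ℕ, 230400 ≤ M := ⟨_, le_rfl⟩
  set c : ℝ := 8 * (24 * 4000 / Real.log 2 + 1)
  have hc : 0 < c := by
    have := Real.log_pos one_lt_two
    positivity
  have hsum : Summable fun n : ℕ => (n : ℝ) ^ (-1 - 1 / 128 : ℝ) :=
    Real.summable_nat_rpow.2 (by norm_num)
  obtain ⟨F, hF⟩ := summable_iff_vanishing.1 hsum (Metric.ball 0 (1 / (2 * c)))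
    (Metric.ball_mem_nhds 0 (by positivity))
  set B := max (max (2 ^ M) (F.sup id)) (2 ^ 16)
  have hBM : 2 ^ M ≤ B := (le_max_left _ _).trans (le_max_left _ _)
  refine ⟨B, le_max_right _ _, fun x => ?_⟩
  set P : Finset (ℕ × ℕ) := ((Icc (B + 1) x) ×ˢ (Icc 2 x)).filter fun p =>
    Squarefree p.1 ∧ Big B p.1 ∧ Big B p.2 ∧ p.1 ≤ p.2 ^ 24 ∧ p.2 ≤ p.1 ^ 24 ∧
      ((∀ q ∈ p.1.primeFactors, p.2 ^ (q - 1) % q ^ 2 = 1) ∨ p.2 % p.1 = 1)
  have hsub : (Icc 1 x).filter (Ev B) ⊆ P.image fun p => p.1 * p.2 := by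
    intro s hs
    obtain ⟨hs1, m, a, rfl, h1, h2, h3, h4, h5, h6, h7, h8⟩ := mem_filter.1 hs
    have hx := (mem_Icc.1 hs1).2
    have hBm : B < m := lt_of_lt_of_le (h2.2 _ (Nat.minFac_prime h4.ne') (Nat.minFac_dvd m))
      (Nat.minFac_le (by omega))
    refine mem_image.2 ⟨(m, a), mem_filter.2 ⟨mem_product.2 ⟨mem_Icc.2 ⟨hBm, ?_⟩,
      mem_Icc.2 ⟨h5, ?_⟩⟩, h1, h2, h3, h6, h7, h8⟩, rfl⟩
    · exact (Nat.le_mul_of_pos_right m (by omega)).trans hx
    · exact (Nat.le_mul_of_pos_left a (by omega)).trans hx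
  refine (sum_le_sum_of_subset_of_nonneg hsub fun s _ _ => by positivity).trans ?_
  refine (sum_image_le_of_nonneg fun s _ => by positivity).trans ?_
  rw [sum_filter, sum_product]
  have hinner : ∀ m ∈ Icc (B + 1) x, (∑ a ∈ Icc 2 x, if Squarefree (m, a).1 ∧ Big B (m, a).1 ∧
      Big B (m, a).2 ∧ (m, a).1 ≤ (m, a).2 ^ 24 ∧ (m, a).2 ≤ (m, a).1 ^ 24 ∧
      ((∀ q ∈ (m, a).1.primeFactors, (m, a).2 ^ (q - 1) % q ^ 2 = 1) ∨ (m, a).2 % (m, a).1 = 1)
      then (((m, a).1 * (m, a).2 : ℕ) : ℝ) ^ (-(1 - 1 / 4000) : ℝ) else 0) ≤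
      c * (m : ℝ) ^ (-1 - 1 / 128 : ℝ) := by
    intro m hm
    rw [← sum_filter]
    have hB0 : 2 ^ 16 ≤ B := le_max_right _ _
    have hmB : B < m := (mem_Icc.1 hm).1
    have hm0 : (0 : ℝ) < m := by exact_mod_cast (show 0 < m by omega)
    have hm1 : 1 < m := by omega
    by_cases hgood : Squarefree m ∧ Big B m
    swap
    · rw [filter_eq_empty_iff.2 fun a _ h => hgood ⟨h.1, h.2.1⟩, sum_empty]
      positivity
    obtain ⟨Q1, hQ1⟩ : ∃ Q : ℕ → Prop,
      ∀ a, Q a ↔ ∀ q ∈ m.primeFactors, a ^ (q - 1) % q ^ 2 = 1 := ⟨_, fun _ => Iff.rfl⟩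
    obtain ⟨Q2, hQ2⟩ : ∃ Q : ℕ → Prop, ∀ a, Q a ↔ a % m = 1 := ⟨_, fun _ => Iff.rfl⟩
    have hsq : ∀ q ∈ m.primeFactors, 1 < q ^ 2 := fun q hq =>
      Nat.one_lt_pow two_ne_zero (Nat.prime_of_mem_primeFactors hq).one_lt
    have s1 := sum_a_le hM hBM hm1 Q1
      ((hQ1 1).2 fun q hq => by rw [one_pow]; exact Nat.mod_eq_of_lt (hsq q hq))
      (fun a b ha hb => (hQ1 _).2 fun q hq => by
        rw [mul_pow, Nat.mul_mod, (hQ1 a).1 ha q hq, (hQ1 b).1 hb q hq, one_mul]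
        exact Nat.mod_eq_of_lt (hsq q hq))
      (fun a ha => (hQ1 _).2 fun q hq => by
        rw [Nat.pow_mod, Nat.mod_mod_of_dvd a (pow_dvd_pow_of_dvd
          (Nat.dvd_of_mem_primeFactors hq) 2), ← Nat.pow_mod]
        exact (hQ1 a).1 ha q hq)
      ((card_le_card fun a ha => mem_filter.2
        ⟨(mem_filter.1 ha).1, (hQ1 a).1 (mem_filter.1 ha).2⟩).trans
        (card_roots_sqfree (B := B) (by omega) hgood.1 hgood.2)) x
    have s2 := sum_a_le hM hBM hm1 Q2 ((hQ2 1).2 (Nat.mod_eq_of_lt hm1))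
      (fun a b ha hb => (hQ2 _).2 (by
        rw [Nat.mul_mod, (hQ2 a).1 ha, (hQ2 b).1 hb, one_mul, Nat.mod_eq_of_lt hm1]))
      (fun a ha => (hQ2 _).2 (by
        rw [Nat.mod_mod_of_dvd a (dvd_pow_self m two_ne_zero)]
        exact (hQ2 a).1 ha))
      ((card_le_card fun a ha => mem_filter.2
        ⟨(mem_filter.1 ha).1, (hQ2 a).1 (mem_filter.1 ha).2⟩).trans card_one_mod) x
    have hsplit : (Icc 2 x).filter (fun a => Squarefree (m, a).1 ∧ Big B (m, a).1 ∧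
        Big B (m, a).2 ∧ (m, a).1 ≤ (m, a).2 ^ 24 ∧ (m, a).2 ≤ (m, a).1 ^ 24 ∧
        ((∀ q ∈ (m, a).1.primeFactors, (m, a).2 ^ (q - 1) % q ^ 2 = 1) ∨
          (m, a).2 % (m, a).1 = 1)) ⊆
        (Icc 2 x).filter (fun a => Big B a ∧ Q1 a ∧ m ≤ a ^ 24 ∧ a ≤ m ^ 24) ∪
          (Icc 2 x).filter (fun a => Big B a ∧ Q2 a ∧ m ≤ a ^ 24 ∧ a ≤ m ^ 24) := by
      intro a ha
      simp only [mem_filter, mem_union] at ha ⊢
      rcases ha.2.2.2.2.2.2 with h | h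
      · exact Or.inl ⟨ha.1, ha.2.2.2.1, (hQ1 a).2 h, ha.2.2.2.2.1, ha.2.2.2.2.2.1⟩
      · exact Or.inr ⟨ha.1, ha.2.2.2.1, (hQ2 a).2 h, ha.2.2.2.2.1, ha.2.2.2.2.2.1⟩
    have hsum2 : ∑ a ∈ (Icc 2 x).filter (fun a => Big B a ∧ Q1 a ∧ m ≤ a ^ 24 ∧ a ≤ m ^ 24) ∪
          (Icc 2 x).filter (fun a => Big B a ∧ Q2 a ∧ m ≤ a ^ 24 ∧ a ≤ m ^ 24),
          (a : ℝ) ^ (-(1 - 1 / 4000) : ℝ) ≤
        (24 * 4000 / Real.log 2 + 1) * (8 * (m : ℝ) ^ (25 / 4000 - 1 / 64 : ℝ)) := by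
      have h := sum_union_inter (s₁ := (Icc 2 x).filter fun a =>
          Big B a ∧ Q1 a ∧ m ≤ a ^ 24 ∧ a ≤ m ^ 24)
        (s₂ := (Icc 2 x).filter fun a => Big B a ∧ Q2 a ∧ m ≤ a ^ 24 ∧ a ≤ m ^ 24)
        (f := fun a : ℕ => (a : ℝ) ^ (-(1 - 1 / 4000) : ℝ))
      have h0 : 0 ≤ ∑ a ∈ ((Icc 2 x).filter fun a => Big B a ∧ Q1 a ∧ m ≤ a ^ 24 ∧ a ≤ m ^ 24) ∩
          ((Icc 2 x).filter fun a => Big B a ∧ Q2 a ∧ m ≤ a ^ 24 ∧ a ≤ m ^ 24),
          (a : ℝ) ^ (-(1 - 1 / 4000) : ℝ) := sum_nonneg fun _ _ => by positivity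
      linarith
    refine le_trans (sum_le_sum_of_subset_of_nonneg hsplit fun _ _ _ => by positivity) ?_
    simp only [Nat.cast_mul, Real.mul_rpow (Nat.cast_nonneg _) (Nat.cast_nonneg _)]
    rw [← mul_sum]
    refine (mul_le_mul_of_nonneg_left hsum2 (by positivity)).trans ?_
    have hexp : (m : ℝ) ^ (-(1 - 1 / 4000) : ℝ) * (m : ℝ) ^ (25 / 4000 - 1 / 64 : ℝ) ≤
        (m : ℝ) ^ (-1 - 1 / 128 : ℝ) := by
      rw [← Real.rpow_add hm0]
      exact Real.rpow_le_rpow_of_exponent_le (by exact_mod_cast hm1.le) (by norm_num)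
    calc (m : ℝ) ^ (-(1 - 1 / 4000) : ℝ) *
          ((24 * 4000 / Real.log 2 + 1) * (8 * (m : ℝ) ^ (25 / 4000 - 1 / 64 : ℝ)))
        = c * ((m : ℝ) ^ (-(1 - 1 / 4000) : ℝ) * (m : ℝ) ^ (25 / 4000 - 1 / 64 : ℝ)) := by
          simp only [c]; ring
      _ ≤ _ := mul_le_mul_of_nonneg_left hexp hc.le
  refine (sum_le_sum hinner).trans ?_
  rw [← mul_sum]
  have hdisj : Disjoint (Icc (B + 1) x) F := disjoint_left.2 fun m hm hmF => by
    have h1 := (mem_Icc.1 hm).1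
    have h2 : m ≤ F.sup id := le_sup (f := id) hmF
    have h3 : F.sup id ≤ B := (le_max_right _ _).trans (le_max_left _ _)
    omega
  have h := hF _ hdisj
  rw [mem_ball_zero_iff, Real.norm_of_nonneg (sum_nonneg fun _ _ => by positivity),
    lt_div_iff₀ (by positivity)] at h
  linarith

/-- The series of products of events is bounded by `2`. -/
theorem sum_evProd_le {B : ℕ}
    (hB : ∀ x : ℕ, ∑ s ∈ (Icc 1 x).filter (Ev B), (s : ℝ) ^ (-(1 - 1 / 4000) : ℝ) ≤ 1 / 2)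
    (x : ℕ) :
    ∑ D ∈ (Icc 1 x).filter (EvProd B), (D : ℝ) ^ (-(1 - 1 / 4000) : ℝ) ≤ 2 := by
  set S := ∑ D ∈ (Icc 1 x).filter (EvProd B), (D : ℝ) ^ (-(1 - 1 / 4000) : ℝ) with hS
  have hS0 : 0 ≤ S := sum_nonneg fun _ _ => by positivity
  set img : Finset ℕ := (((Icc 1 x).filter (Ev B)) ×ˢ ((Icc 1 x).filter (EvProd B))).image
    fun p : ℕ × ℕ => p.1 * p.2 with himg
  have hsub : (Icc 1 x).filter (EvProd B) ⊆ insert 1 img := by
    intro D hD
    obtain ⟨hx, hD⟩ := mem_filter.1 hD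
    cases hD with
    | one => exact mem_insert_self _ _
    | @mul s D hs hD' =>
      have hx' := (mem_Icc.1 hx).2
      refine mem_insert_of_mem (mem_image.2 ⟨(s, D), mem_product.2 ⟨mem_filter.2 ⟨mem_Icc.2
        ⟨hs.pos, ?_⟩, hs⟩, mem_filter.2 ⟨mem_Icc.2 ⟨hD'.pos, ?_⟩, hD'⟩⟩, rfl⟩)
      · exact (Nat.le_mul_of_pos_right s hD'.pos).trans hx'
      · exact (Nat.le_mul_of_pos_left D hs.pos).trans hx'
  have himgle : ∑ D ∈ img, (D : ℝ) ^ (-(1 - 1 / 4000) : ℝ) ≤ 1 / 2 * S := by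
    refine (sum_image_le_of_nonneg fun _ _ => by positivity).trans ?_
    simp only [Nat.cast_mul, Real.mul_rpow (Nat.cast_nonneg _) (Nat.cast_nonneg _)]
    rw [sum_product]
    dsimp only
    rw [← sum_mul_sum, ← hS]
    exact mul_le_mul_of_nonneg_right (hB x) hS0
  have h1 : S ≤ 1 + 1 / 2 * S := by
    refine (sum_le_sum_of_subset_of_nonneg hsub fun _ _ _ => by positivity).trans ?_
    by_cases h : 1 ∈ img
    · rw [insert_eq_of_mem h]
      exact himgle.trans (le_add_of_nonneg_left zero_le_one)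
    · rw [sum_insert h, Nat.cast_one, Real.one_rpow]
      exact add_le_add le_rfl himgle
  linarith

end Vale.Agent.P033.PS
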