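import Vale.Agent.P033.Decomp

/-!
# P033: the loss of one projection at the ramified prime

Let `N = P ^ e * M` with `e ≥ 2`, let `π = ζ ^ M - 1` and let `σ : ζ ↦ ζ * ω`. On an ideal all
whose primes contain `π` the operator `σ - 1` gains `π ^ (P ^ (e - 1) - 1)`, so projecting onto a
residue class modulo `P` loses at most `π ^ (P - 1)`.
-/

open NumberField Finset

namespace Vale.Agent.P033.PS

open Vale.Agent.P033

variable {N : ℕ} [NeZero N] {K : Type*} [Field K] [NumberField K] [IsCyclotomicExtension {N} ℚ K]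
  {P : ℕ} [hP : Fact P.Prime] {e M : ℕ}

variable (N K) in
/-- The element `ζ ^ M - 1`. -/
noncomputable def pi (M : ℕ) : 𝓞 K := zO N K ^ M - 1

omit [NeZero N] hP in
theorem dvd_sq (hN : N = P ^ e * M) (he : 2 ≤ e) : P * P ∣ N := by
  rw [hN, ← sq]; exact (pow_dvd_pow P he).mul_right M

omit [NeZero N] in
theorem div_eq (hN : N = P ^ e * M) (he : 2 ≤ e) : N / P = P ^ (e - 1) * M := by
  obtain ⟨f, rfl⟩ : ∃ f, e = f + 1 := ⟨e - 1, by omega⟩
  rw [hN, Nat.add_sub_cancel, pow_succ', mul_assoc, Nat.mul_div_cancel_left _ hP.out.pos]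

omit hP in
theorem eta_prim (hN : N = P ^ e * M) : IsPrimitiveRoot (zO N K ^ M) (P ^ e) :=
  zO_prim.pow (NeZero.pos N) (by rw [hN, mul_comm])

/-- `π ^ φ(P ^ e)` and `P` are associated. -/
theorem pi_pow_assoc (hN : N = P ^ e * M) (he : 2 ≤ e) :
    Associated (pi N K M ^ (P ^ e).totient) (P : 𝓞 K) := by
  obtain ⟨f, rfl⟩ : ∃ f, e = f + 1 := ⟨e - 1, by omega⟩
  set η := zO N K ^ M
  have hη : IsPrimitiveRoot η (P ^ (f + 1)) := eta_prim hN
  have h := Polynomial.eval_one_cyclotomic_prime_pow (R := 𝓞 K) (p := P) f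
  rw [Polynomial.cyclotomic_eq_prod_X_sub_primitiveRoots hη, Polynomial.eval_prod] at h
  rw [← h, ← hη.card_primitiveRoots, ← prod_const]
  refine Associated.prod _ _ _ fun μ hμ => ?_
  have hμ' := (mem_primitiveRoots (pow_pos hP.out.pos _)).1 hμ
  have : NeZero (P ^ (f + 1)) := ⟨pow_ne_zero _ hP.out.ne_zero⟩
  obtain ⟨i, -, hi, rfl⟩ := hη.isPrimitiveRoot_iff.1 hμ'
  rw [Polynomial.eval_sub, Polynomial.eval_X, Polynomial.eval_C, ← neg_sub (η ^ i) 1]
  exact (hη.associated_sub_one_pow_sub_one_of_coprime hi).neg_right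

theorem pi_ne_zero (hN : N = P ^ e * M) (he : 2 ≤ e) : pi N K M ≠ 0 := by
  intro h
  have h1 := (pi_pow_assoc (K := K) hN he).symm.dvd
  have h2 := (pi_pow_assoc (K := K) hN he).dvd
  rw [h, zero_pow (Nat.totient_pos.2 (pow_pos hP.out.pos _)).ne'] at h2
  exact Nat.cast_ne_zero.2 hP.out.ne_zero (eq_zero_of_zero_dvd h2)

/-- A prime containing `P` contains `π`. -/
theorem pi_mem (hN : N = P ^ e * M) (he : 2 ≤ e) {I : Ideal (𝓞 K)} (hI : I.IsPrime)
    (hPI : (P : 𝓞 K) ∈ I) : pi N K M ∈ I := by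
  obtain ⟨v, hv⟩ := (pi_pow_assoc (K := K) hN he).symm.dvd
  refine hI.mem_of_pow_mem _ (?_ : pi N K M ^ (P ^ e).totient ∈ I)
  rw [hv]
  exact I.mul_mem_right _ hPI

/-- `π ^ (P ^ (e - 1))` divides `ω - 1`. -/
theorem pi_pow_dvd_om (hN : N = P ^ e * M) (he : 2 ≤ e) :
    pi N K M ^ P ^ (e - 1) ∣ om N K P - 1 := by
  have hom : om N K P = (pi N K M + 1) ^ P ^ (e - 1) := by
    rw [om, div_eq hN he, pi, sub_add_cancel, ← pow_mul, mul_comm]
  obtain ⟨r, hr⟩ := exists_add_pow_prime_pow_eq hP.out (pi N K M) 1 (e - 1)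
  rw [hom, hr, one_pow]
  have h1 : pi N K M ^ P ^ (e - 1) ∣ (P : 𝓞 K) := by
    refine (pow_dvd_pow _ ?_).trans (pi_pow_assoc hN he).dvd
    rw [Nat.totient_prime_pow hP.out (by omega)]
    exact Nat.le_mul_of_pos_right _ (by have := hP.out.two_le; omega)
  have e1 : pi N K M ^ P ^ (e - 1) + 1 + (P : 𝓞 K) * pi N K M * 1 * r - 1 =
      pi N K M ^ P ^ (e - 1) + (P : 𝓞 K) * (pi N K M * r) := by ring
  rw [e1]
  exact dvd_add dvd_rfl (h1.mul_right _)

/-- `σ` is the identity modulo `ω - 1`. -/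
theorem sg_sub_dvd (hPN : P * P ∣ N) (y : 𝓞 K) : om N K P - 1 ∣ sg K hPN y - y := by
  rw [← Ideal.mem_span_singleton, ← Ideal.Quotient.eq_zero_iff_mem, map_sub, sub_eq_zero]
  refine RingHom.congr_fun (hom_ext (N := N)
    (f := (Ideal.Quotient.mk (Ideal.span {om N K P - 1})).comp (sg K hPN))
    (g := Ideal.Quotient.mk _) ?_) y
  rw [RingHom.comp_apply, sg_zO, Ideal.Quotient.eq, Ideal.mem_span_singleton]
  exact ⟨zO N K, by ring⟩

variable (hN : N = P ^ e * M) (he : 2 ≤ e)
include hN he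

/-- On an ideal all whose primes contain `π`, `σ - 1` gains `π ^ (P ^ (e - 1) - 1)`. -/
theorem sg_sub_mem (E : Ideal (𝓞 K)) : E ≠ ⊥ →
    (∀ I : Ideal (𝓞 K), I.IsPrime → E ≤ I → pi N K M ∈ I) →
    ∀ z ∈ E, sg K (dvd_sq hN he) z - z ∈
      Ideal.span {pi N K M ^ (P ^ (e - 1) - 1)} * E := by
  set g := P ^ (e - 1) - 1
  have hg : P ^ (e - 1) = g + 1 := (Nat.sub_add_cancel (Nat.one_le_pow _ _ hP.out.pos)).symm
  have hδ : ∀ y, sg K (dvd_sq hN he) y - y ∈ Ideal.span {pi N K M ^ g * pi N K M} := fun y => by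
    rw [← pow_succ, ← hg, Ideal.mem_span_singleton]
    exact (pi_pow_dvd_om hN he).trans (sg_sub_dvd _ y)
  induction E using UniqueFactorizationMonoid.induction_on_prime with
  | h₁ => exact fun h => absurd Submodule.zero_eq_bot h
  | h₂ E hE =>
    intro _ _ z _
    rw [Ideal.isUnit_iff.1 hE, Ideal.mul_top]
    exact Ideal.span_singleton_le_span_singleton.2 (dvd_mul_right _ _) (hδ z)
  | h₃ E p hE hp ih =>
    intro _ hI z hz
    have hpπ : pi N K M ∈ p := hI p (Ideal.isPrime_of_prime hp) Ideal.mul_le_left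
    have ih := ih hE fun I hIp hEI => hI I hIp (Ideal.mul_le_right.trans hEI)
    induction hz using Submodule.mul_induction_on' with
    | mem_mul_mem a ha b hb =>
      have hb' : sg K (dvd_sq hN he) b ∈ E := by
        have := E.add_mem (Ideal.mul_le_right (ih b hb)) hb
        rwa [sub_add_cancel] at this
      have ha' : sg K (dvd_sq hN he) a - a ∈ Ideal.span {pi N K M ^ g} * p := by
        obtain ⟨v, hv⟩ := Ideal.mem_span_singleton.1 (hδ a)
        rw [hv, mul_assoc]
        exact Ideal.mul_mem_mul (Ideal.mem_span_singleton_self _) (p.mul_mem_right _ hpπ)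
      have h2 : a * (sg K (dvd_sq hN he) b - b) ∈ Ideal.span {pi N K M ^ g} * (p * E) := by
        rw [← mul_assoc, mul_comm (Ideal.span {pi N K M ^ g}) p, mul_assoc]
        exact Ideal.mul_mem_mul ha (ih b hb)
      have h1 : (sg K (dvd_sq hN he) a - a) * sg K (dvd_sq hN he) b ∈
          Ideal.span {pi N K M ^ g} * (p * E) := by
        rw [← mul_assoc]
        exact Ideal.mul_mem_mul ha' hb'
      have := add_mem h1 h2
      rw [map_mul]
      convert this using 1
      ring
    | add a _ b _ iha ihb =>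
      have := add_mem iha ihb
      rw [map_add]
      convert this using 1
      ring

/-- The same for the operator twisted by a power of `ω`. -/
theorem twist_sub_mem {E : Ideal (𝓞 K)} (hE : E ≠ ⊥)
    (hEI : ∀ I : Ideal (𝓞 K), I.IsPrime → E ≤ I → pi N K M ∈ I) (n : ℕ) {z : 𝓞 K} (hz : z ∈ E) :
    om N K P ^ n * sg K (dvd_sq hN he) z - z ∈
      Ideal.span {pi N K M ^ (P ^ (e - 1) - 1)} * E := by
  have h1 : pi N K M ^ (P ^ (e - 1) - 1) ∣ om N K P ^ n - 1 :=
    ((pow_dvd_pow _ (Nat.sub_le _ _)).trans (pi_pow_dvd_om hN he)).trans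
      (by simpa using sub_dvd_pow_sub_pow (om N K P) 1 n)
  have h := add_mem (Ideal.mul_mem_left _ (om N K P ^ n) (sg_sub_mem hN he E hE hEI z hz))
    (Ideal.mul_mem_mul (Ideal.mem_span_singleton.2 h1) hz)
  convert h using 1
  ring

/-- **Projection onto a residue class loses at most `π ^ (P - 1)`.** -/
theorem pi_mul_mem {E : Ideal (𝓞 K)} (hE : E ≠ ⊥)
    (hEI : ∀ I : Ideal (𝓞 K), I.IsPrime → E ≤ I → pi N K M ∈ I) (n : ℕ) {z w : 𝓞 K} (hz : z ∈ E)
    (hw : ∑ i ∈ range P, (fun y => om N K P ^ n * sg K (dvd_sq hN he) y)^[i] z = (P : 𝓞 K) * w) :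
    pi N K M ^ (P - 1) * w ∈ E := by
  set π := pi N K M
  set g := P ^ (e - 1) - 1
  set T : 𝓞 K → 𝓞 K := fun y => om N K P ^ n * sg K (dvd_sq hN he) y
  set D : 𝓞 K → 𝓞 K := fun y => T y - y
  have hTsum : ∀ (s : Finset ℕ) (F : ℕ → 𝓞 K), T (∑ j ∈ s, F j) = ∑ j ∈ s, T (F j) := fun s F => by
    simp only [T, map_sum, mul_sum]
  -- the powers of `D = T - 1` gain powers of `π ^ g`
  have hD : ∀ j, D^[j] z ∈ Ideal.span {π ^ (g * j)} * E := by
    intro j
    induction j with
    | zero => simpa using hz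
    | succ j ih =>
      have hne : Ideal.span {π ^ (g * j)} * E ≠ ⊥ := mul_ne_zero
        (by rw [Submodule.zero_eq_bot, Ne, Ideal.span_singleton_eq_bot]
            exact pow_ne_zero _ (pi_ne_zero hN he)) hE
      have hpr : ∀ I : Ideal (𝓞 K), I.IsPrime → Ideal.span {π ^ (g * j)} * E ≤ I → π ∈ I := by
        intro I hI hle
        rcases hI.mul_le.1 hle with h | h
        · exact hI.mem_of_pow_mem _ (h (Ideal.mem_span_singleton_self _))
        · exact hEI I hI h
      have := twist_sub_mem hN he hne hpr n ih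
      rw [← mul_assoc, Ideal.span_singleton_mul_span_singleton, ← pow_add] at this
      rw [Function.iterate_succ_apply', show g * (j + 1) = g + g * j by ring]
      exact this
  -- binomial expansion of the orbit sum
  have hTi : ∀ i, T^[i] z = ∑ j ∈ range (i + 1), (i.choose j : 𝓞 K) * D^[j] z := by
    intro i
    induction i with
    | zero => simp
    | succ i ih =>
      have hTc : ∀ (c : ℕ) y, T ((c : 𝓞 K) * y) = (c : 𝓞 K) * (D y + y) := fun c y => by
        simp only [T, D, map_mul, map_natCast]; ring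
      rw [Function.iterate_succ_apply', ih, hTsum, sum_range_succ' _ (i + 1)]
      simp only [hTc, ← Function.iterate_succ_apply', mul_add, sum_add_distrib, Nat.choose_succ_succ,
        Nat.cast_add, add_mul, Nat.choose_zero_right, Nat.cast_one, one_mul, Function.iterate_zero,
        id]
      rw [sum_range_succ' (fun j => (i.choose j : 𝓞 K) * D^[j] z), sum_range_succ _ i,
        sum_range_succ (fun j => (i.choose (j + 1) : 𝓞 K) * D^[j + 1] z) i]
      simp
      ring
  have hockey : ∀ j m : ℕ, ∑ i ∈ range m, i.choose j = m.choose (j + 1) := by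
    intro j m
    induction m with
    | zero => simp
    | succ m ih => rw [sum_range_succ, ih, Nat.choose_succ_succ, add_comm]
  have hsum : ∑ i ∈ range P, T^[i] z = ∑ j ∈ range P, (P.choose (j + 1) : 𝓞 K) * D^[j] z := by
    calc ∑ i ∈ range P, T^[i] z
        = ∑ i ∈ range P, ∑ j ∈ range P, (i.choose j : 𝓞 K) * D^[j] z := by
          refine sum_congr rfl fun i hi => (hTi i).trans ?_
          refine sum_subset (range_subset_range.2 (mem_range.1 hi)) fun j _ hj => ?_
          rw [Nat.choose_eq_zero_of_lt (by rw [mem_range] at hj; omega), Nat.cast_zero, zero_mul]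
      _ = _ := by
          rw [sum_comm]
          refine sum_congr rfl fun j _ => ?_
          rw [← sum_mul, ← Nat.cast_sum, hockey]
  -- each term times `π ^ (P - 1)` is a multiple of `P` in `E`
  have hall : π ^ (P - 1) * ((P : 𝓞 K) * w) ∈ Ideal.span {(P : 𝓞 K)} * E := by
    rw [← hw, hsum, mul_sum]
    refine sum_mem fun j hj => ?_
    have hjP : j + 1 ≤ P := mem_range.1 hj
    have hDE : D^[j] z ∈ E := Ideal.mul_le_right (hD j)
    rcases hjP.lt_or_eq with h | h
    · obtain ⟨c, hc⟩ := hP.out.dvd_choose_self (Nat.succ_ne_zero j) h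
      rw [hc, Nat.cast_mul, mul_left_comm, mul_assoc (P : 𝓞 K)]
      exact Ideal.mul_mem_mul (Ideal.mem_span_singleton_self _)
        (E.mul_mem_left _ (E.mul_mem_left _ hDE))
    · have hj1 : j = P - 1 := by omega
      rw [h, Nat.choose_self, Nat.cast_one, one_mul]
      have hPdvd : (P : 𝓞 K) ∣ π ^ (P - 1) * π ^ (g * j) := by
        rw [← pow_add]
        refine (pi_pow_assoc (K := K) hN he).symm.dvd.trans (pow_dvd_pow _ ?_)
        rw [Nat.totient_prime_pow hP.out (by omega), hj1]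
        have hg : P ^ (e - 1) = g + 1 :=
          (Nat.sub_add_cancel (Nat.one_le_pow _ _ hP.out.pos)).symm
        rw [hg]
        exact le_of_eq (by ring)
      obtain ⟨y, hy, hyz⟩ := Ideal.mem_span_singleton_mul.1 (hD j)
      rw [← hyz, ← mul_assoc]
      exact Ideal.mul_mem_mul (Ideal.mem_span_singleton.2 hPdvd) hy
  rw [mul_left_comm] at hall
  obtain ⟨y, hy, hyz⟩ := Ideal.mem_span_singleton_mul.1 hall
  exact mul_left_cancel₀ (Nat.cast_ne_zero.2 hP.out.ne_zero) hyz ▸ hy

end Vale.Agent.P033.PS
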