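import Vale.Agent.P033.PS.Criterion
import Vale.Agent.P033.PS.Events

/-!
# P033: packing events among the large primes of `u`

Primes `p < r` are related if one is a Wieferich base for the other or `p ∣ r - 1`. As long as the
smaller primes related to some `r` have product at least `r ^ (1 / 8)`, an event is split off. What
remains gives, after deleting few primes, a set to which the criterion applies.
-/

open Finset
open scoped Classical

namespace Vale.Agent.P033.PS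

open Vale.Agent.P033

/-- The relation between a prime and a larger one. -/
def Rel (p r : ℕ) : Prop :=
  p ^ (r - 1) % r ^ 2 = 1 ∨ r ^ (p - 1) % p ^ 2 = 1 ∨ p ∣ r - 1

/-- The smaller primes of `R` related to `r`. -/
noncomputable def below (R : Finset ℕ) (r : ℕ) : Finset ℕ :=
  R.filter fun p => p < r ∧ Rel p r

/-- A subset with product at least a root of `r` and at most `r * r`. -/
theorem exists_sub (U : Finset ℕ) {r h : ℕ} (hr : 1 < r) (hle : ∀ p ∈ U, p ≤ r)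
    (hU : r ≤ (∏ p ∈ U, p) ^ h) : ∃ V ⊆ U, r ≤ (∏ p ∈ V, p) ^ h ∧ ∏ p ∈ V, p ≤ r * r := by
  induction U using Finset.induction_on with
  | empty => simp at hU; omega
  | insert p U hp ih =>
    by_cases h1 : r ≤ (∏ q ∈ U, q) ^ h
    · obtain ⟨V, hV, h2, h3⟩ := ih (fun q hq => hle q (mem_insert_of_mem hq)) h1
      exact ⟨V, hV.trans (subset_insert _ _), h2, h3⟩
    · refine ⟨insert p U, subset_rfl, hU, ?_⟩
      rw [prod_insert hp]
      refine Nat.mul_le_mul (hle p (mem_insert_self _ _)) (le_of_lt ?_)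
      rcases h with _ | h
      · simp at hU; omega
      · exact lt_of_le_of_lt (Nat.le_self_pow (Nat.succ_ne_zero h) _) (not_le.1 h1)

/-- The product over a union is at most the product of the products. -/
theorem prod_union_le {s t : Finset ℕ} (h : ∀ p ∈ s ∪ t, 0 < p) :
    ∏ p ∈ s ∪ t, p ≤ (∏ p ∈ s, p) * ∏ p ∈ t, p := by
  rw [← prod_union_inter]
  exact Nat.le_mul_of_pos_right _ (prod_pos fun p hp => h p (mem_union_left _ (mem_inter.1 hp).1))

theorem prod_biUnion_le {ι : Type*} (s : Finset ι) (g : ι → Finset ℕ)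
    (h : ∀ i ∈ s, ∀ p ∈ g i, 0 < p) :
    ∏ p ∈ s.biUnion g, p ≤ ∏ i ∈ s, ∏ p ∈ g i, p := by
  induction s using Finset.induction_on with
  | empty => simp
  | insert i s hi ih =>
    rw [biUnion_insert, prod_insert hi]
    refine (prod_union_le fun p hp => ?_).trans (Nat.mul_le_mul_left _
      (ih fun j hj => h j (mem_insert_of_mem hj)))
    rcases mem_union.1 hp with hp | hp
    · exact h i (mem_insert_self _ _) p hp
    · obtain ⟨j, hj, hp⟩ := mem_biUnion.1 hp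
      exact h j (mem_insert_of_mem hj) p hp

/-- A set of distinct primes has squarefree product. -/
theorem squarefree_prod {V : Finset ℕ} (hV : ∀ p ∈ V, p.Prime) : Squarefree (∏ p ∈ V, p) :=
  Finset.squarefree_prod_of_pairwise_isCoprime
    (fun p hp q hq hne => Nat.coprime_iff_isRelPrime.1
      ((Nat.coprime_primes (hV p hp) (hV q hq)).2 hne))
    fun p hp => (hV p hp).squarefree

theorem big_prod {B : ℕ} {V : Finset ℕ} (hV : ∀ p ∈ V, p.Prime ∧ B < p) : Big B (∏ p ∈ V, p) :=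
  ⟨prod_ne_zero_iff.2 fun p hp => (hV p hp).1.ne_zero, fun q hq hqd => by
    obtain ⟨p, hp, hqp⟩ := (Prime.dvd_finsetProd_iff hq.prime _).1 hqd
    rw [(Nat.prime_dvd_prime_iff_eq hq (hV p hp).1).1 hqp]
    exact (hV p hp).2⟩

/-- A violation gives an event. -/
theorem exists_event {B : ℕ} {R : Finset ℕ} (hR : ∀ p ∈ R, p.Prime ∧ B < p) {r : ℕ} (hr : r ∈ R)
    (hbad : r ≤ (∏ p ∈ below R r, p) ^ 8) :
    ∃ V ⊆ R, r ∈ V ∧ Ev B (∏ p ∈ V, p) := by
  have hr1 : 1 < r := (hR r hr).1.one_lt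
  set U := below R r
  set U1 := U.filter fun p => p ^ (r - 1) % r ^ 2 = 1
  set U2 := U.filter fun p => r ^ (p - 1) % p ^ 2 = 1
  set U3 := U.filter fun p => p ∣ r - 1
  have hUsub : ∀ p ∈ U, p ∈ R ∧ p < r ∧ Rel p r := fun p hp => mem_filter.1 hp
  have hpos : ∀ p ∈ U, 0 < p := fun p hp => (hR p (hUsub p hp).1).1.pos
  have hcov : U = U1 ∪ U2 ∪ U3 := by
    ext p
    simp only [U1, U2, U3, mem_union, mem_filter]
    exact ⟨fun hp => by rcases (hUsub p hp).2.2 with h | h | h <;> tauto, by tauto⟩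
  have hprod : ∏ p ∈ U, p ≤ (∏ p ∈ U1, p) * (∏ p ∈ U2, p) * ∏ p ∈ U3, p := by
    rw [hcov]
    refine (prod_union_le fun p hp => hpos p (hcov ▸ hp)).trans (Nat.mul_le_mul_right _ ?_)
    exact prod_union_le fun p hp => hpos p (hcov ▸ mem_union_left _ hp)
  obtain ⟨W, hWU, hW⟩ : ∃ W, (W = U1 ∨ W = U2 ∨ W = U3) ∧ r ≤ (∏ p ∈ W, p) ^ 24 := by
    by_contra h
    push Not at h
    have h1 := h U1 (Or.inl rfl)
    have h2 := h U2 (Or.inr (Or.inl rfl))
    have h3 := h U3 (Or.inr (Or.inr rfl))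
    have h4 : r ^ 3 ≤ ((∏ p ∈ U1, p) * (∏ p ∈ U2, p) * ∏ p ∈ U3, p) ^ 24 := by
      calc r ^ 3 ≤ ((∏ p ∈ U, p) ^ 8) ^ 3 := Nat.pow_le_pow_left hbad 3
        _ = (∏ p ∈ U, p) ^ 24 := by rw [← pow_mul]
        _ ≤ _ := Nat.pow_le_pow_left hprod 24
    rw [mul_pow, mul_pow, show r ^ 3 = r * r * r by ring] at h4
    exact absurd h4 (not_le.2 (Nat.mul_lt_mul'' (Nat.mul_lt_mul'' h1 h2) h3))
  have hWsub : W ⊆ U := by rcases hWU with rfl | rfl | rfl <;> exact filter_subset _ _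
  obtain ⟨V, hVW, hV1, hV2⟩ := exists_sub W hr1 (fun p hp => (hUsub p (hWsub hp)).2.1.le) hW
  have hVU : V ⊆ U := hVW.trans hWsub
  have hVR : ∀ p ∈ V, p.Prime ∧ B < p := fun p hp => hR p (hUsub p (hVU hp)).1
  have hrV : r ∉ V := fun h => lt_irrefl _ (hUsub r (hVU h)).2.1
  have hd1 : 1 < ∏ p ∈ V, p := by
    by_contra h
    have : (∏ p ∈ V, p) ^ 24 ≤ 1 := (Nat.pow_le_pow_left (not_lt.1 h) 24).trans (by simp)
    omega
  have hrr : r * r ≤ r ^ 24 := by
    rw [← sq]; exact Nat.pow_le_pow_right (by omega) (by norm_num)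
  have hsqr := (hR r hr).1.squarefree
  have hbigr : Big B r := ⟨by omega, fun q hq hqd => by
    rw [(Nat.prime_dvd_prime_iff_eq hq (hR r hr).1).1 hqd]; exact (hR r hr).2⟩
  refine ⟨insert r V, insert_subset hr fun p hp => (hUsub p (hVU hp)).1, mem_insert_self _ _, ?_⟩
  rw [prod_insert hrV]
  rcases hWU with rfl | rfl | rfl
  · refine ⟨r, ∏ p ∈ V, p, rfl, hsqr, hbigr, big_prod hVR, hr1, hd1, hV1, hV2.trans hrr,
      Or.inl fun q hq => ?_⟩
    rw [(hR r hr).1.primeFactors, mem_singleton] at hq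
    subst hq
    rw [← prod_pow, prod_nat_mod, prod_eq_one fun p hp => (mem_filter.1 (hVW hp)).2]
    exact Nat.mod_eq_of_lt (Nat.one_lt_pow two_ne_zero hr1)
  · refine ⟨∏ p ∈ V, p, r, mul_comm _ _, squarefree_prod fun p hp => (hVR p hp).1, big_prod hVR,
      hbigr, hd1, hr1, hV2.trans hrr, hV1, Or.inl fun q hq => ?_⟩
    rw [Nat.primeFactors_prod fun p hp => (hVR p hp).1] at hq
    exact (mem_filter.1 (hVW hq)).2
  · refine ⟨∏ p ∈ V, p, r, mul_comm _ _, squarefree_prod fun p hp => (hVR p hp).1, big_prod hVR,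
      hbigr, hd1, hr1, hV2.trans hrr, hV1, Or.inr ?_⟩
    obtain ⟨c, hc⟩ : ∏ p ∈ V, p ∣ r - 1 := Finset.prod_primes_dvd _
      (fun p hp => (hVR p hp).1.prime) fun p hp => (mem_filter.1 (hVW hp)).2
    rw [show r = 1 + (∏ p ∈ V, p) * c by omega, Nat.add_mul_mod_self_left,
      Nat.mod_eq_of_lt hd1]

/-- Splitting off events until none is left. -/
theorem exists_packing {B : ℕ} (R : Finset ℕ) (hR : ∀ p ∈ R, p.Prime ∧ B < p) :
    ∃ R' ⊆ R, EvProd B (∏ p ∈ R \ R', p) ∧ ∀ r ∈ R', (∏ p ∈ below R' r, p) ^ 8 < r := by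
  induction R using Finset.strongInduction with
  | _ R ih =>
  by_cases h : ∀ r ∈ R, (∏ p ∈ below R r, p) ^ 8 < r
  · exact ⟨R, subset_rfl, by simpa using EvProd.one, h⟩
  push Not at h
  obtain ⟨r, hr, hbad⟩ := h
  obtain ⟨V, hVR, hrV, hev⟩ := exists_event hR hr hbad
  obtain ⟨R', hR', hprod, hgood⟩ := ih (R \ V) (sdiff_ssubset hVR ⟨r, hrV⟩)
    fun p hp => hR p (mem_sdiff.1 hp).1
  refine ⟨R', hR'.trans sdiff_subset, ?_, hgood⟩
  have e : R \ R' = V ∪ ((R \ V) \ R') := by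
    ext p
    simp only [mem_sdiff, mem_union]
    constructor
    · intro hp; tauto
    · rintro (hp | hp)
      · exact ⟨hVR hp, fun h' => (mem_sdiff.1 (hR' h')).2 hp⟩
      · exact ⟨hp.1.1, hp.2⟩
  rw [e, prod_union (disjoint_left.2 fun p hp hp' => (mem_sdiff.1 (mem_sdiff.1 hp').1).2 hp)]
  exact EvProd.mul hev hprod

/-- `u ≤ 2 ^ ω(u) * φ u`. -/
theorem le_two_pow_mul_totient (u : ℕ) : u ≤ 2 ^ #u.primeFactors * u.totient := by
  have hprod : ∏ p ∈ u.primeFactors, p ≤ 2 ^ #u.primeFactors * ∏ p ∈ u.primeFactors, (p - 1) := by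
    rw [← prod_const, ← prod_mul_distrib]
    exact prod_le_prod (fun _ _ => Nat.zero_le _) fun p hp => by
      have := (Nat.prime_of_mem_primeFactors hp).two_le
      omega
  refine Nat.le_of_mul_le_mul_right ?_
    (Finset.prod_pos fun p (hp : p ∈ u.primeFactors) => (Nat.prime_of_mem_primeFactors hp).pos)
  calc u * ∏ p ∈ u.primeFactors, p
      ≤ u * (2 ^ #u.primeFactors * ∏ p ∈ u.primeFactors, (p - 1)) := Nat.mul_le_mul_left _ hprod
    _ = 2 ^ #u.primeFactors * (u * ∏ p ∈ u.primeFactors, (p - 1)) := by ring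
    _ = _ := by rw [← Nat.totient_mul_prod_primeFactors, ← mul_assoc]

/-- The arithmetic at the end of `exceptional_bound`. -/
theorem size_bound {u Z W L n : ℕ} (hu : 0 < u) (h1 : u ≤ 4 * (2 ^ n * 2 ^ n) * L ^ 3)
    (h2 : (2 ^ n) ^ 16 ≤ Z ^ 16 * u) (hL : L ^ 8 ≤ Z ^ 16 * W) (hW : W ≤ u) : u ≤ 16 * Z ^ 16 := by
  have h3 : u ^ 8 ≤ (2 ^ 4 * Z ^ 16) ^ 4 * u ^ 4 := by
    calc u ^ 8 ≤ (4 * (2 ^ n * 2 ^ n) * L ^ 3) ^ 8 := Nat.pow_le_pow_left h1 8
      _ = 4 ^ 8 * (2 ^ n) ^ 16 * (L ^ 8) ^ 3 := by ring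
      _ ≤ 4 ^ 8 * (Z ^ 16 * u) * (Z ^ 16 * u) ^ 3 :=
          Nat.mul_le_mul (Nat.mul_le_mul_left _ h2)
            (Nat.pow_le_pow_left (hL.trans (Nat.mul_le_mul_left _ hW)) 3)
      _ = _ := by ring
  have h4 : u ^ 4 * u ^ 4 ≤ (2 ^ 4 * Z ^ 16) ^ 4 * u ^ 4 := by rwa [← pow_add]
  exact (Nat.pow_le_pow_iff_left (by norm_num)).1 (Nat.le_of_mul_le_mul_right h4 (by positivity))

/-- An order `4 * u ^ 2` forces `u` to be small against the part outside a packed set `R'`. -/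
theorem exceptional_bound {B u : ℕ} (hB : 2 ^ 16 ≤ B) (hu : 0 < u)
    (hCH : IsCHOrder (4 * u ^ 2)) (R' : Finset ℕ) (hR'u : R' ⊆ u.primeFactors)
    (hR'B : ∀ p ∈ R', B < p ∧ u.factorization p = 1)
    (hpack : ∀ r ∈ R', (∏ p ∈ below R' r, p) ^ 8 < r) :
    u ≤ 16 * (u / ∏ p ∈ R', p) ^ 16 := by
  have hpr : ∀ p ∈ u.primeFactors, p.Prime := fun p hp => Nat.prime_of_mem_primeFactors hp
  have hdvd : ∀ S ⊆ u.primeFactors, ∏ p ∈ S, p ∣ u := fun S hS =>
    Finset.prod_primes_dvd _ (fun p hp => (hpr p (hS hp)).prime)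
      fun p hp => Nat.dvd_of_mem_primeFactors (hS hp)
  obtain ⟨Z, hZ⟩ := hdvd R' hR'u
  have hR0 : 0 < ∏ p ∈ R', p := prod_pos fun p hp => (hpr p (hR'u hp)).pos
  rw [show u / ∏ p ∈ R', p = Z from Nat.div_eq_of_eq_mul_right hR0 hZ]
  set S := u.primeFactors \ R'
  have hSZ : ∏ p ∈ S, p ∣ Z := by
    refine Nat.dvd_of_mul_dvd_mul_left hR0 ?_
    rw [← hZ, ← prod_union disjoint_sdiff, union_sdiff_of_subset hR'u]
    exact hdvd _ subset_rfl
  have hZ0 : 0 < Z := Nat.pos_of_ne_zero fun h => by rw [h, mul_zero] at hZ; omega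
  set R1 := R'.biUnion (below R')
  set R2 := R'.filter fun p => ∃ s ∈ S, p ∣ s - 1
  set T := R' \ (R1 ∪ R2)
  have hR1 : R1 ⊆ R' := biUnion_subset.2 fun r _ => filter_subset _ _
  have hT : T ⊆ u.primeFactors := sdiff_subset.trans hR'u
  have hpack' : (∏ p ∈ R1, p) ^ 8 ≤ ∏ p ∈ R', p := by
    refine (Nat.pow_le_pow_left (prod_biUnion_le _ _
      fun r _ p hp => (hpr p (hR'u (filter_subset _ _ hp))).pos) 8).trans ?_
    rw [← prod_pow]
    exact prod_le_prod (fun _ _ => Nat.zero_le _) fun r hr => (hpack r hr).le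
  have hR2 : ∏ p ∈ R2, p ≤ Z := by
    have h1 : ∏ p ∈ R2, p ∣ ∏ s ∈ S, (s - 1) :=
      Finset.prod_primes_dvd _ (fun p hp => (hpr p (hR'u (mem_filter.1 hp).1)).prime) fun p hp => by
        obtain ⟨s, hs, hps⟩ := (mem_filter.1 hp).2
        exact hps.trans (dvd_prod_of_mem _ hs)
    have h2 : 0 < ∏ s ∈ S, (s - 1) := prod_pos fun s hs => by
      have := (hpr s (sdiff_subset hs)).two_le
      omega
    exact (Nat.le_of_dvd h2 h1).trans ((prod_le_prod (fun _ _ => Nat.zero_le _)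
      fun s _ => Nat.sub_le s 1).trans (Nat.le_of_dvd hZ0 hSZ))
  have hgood : ∀ P ∈ T, ∀ q ∈ T, q ≠ P →
      q ^ (P - 1) % P ^ 2 ≠ 1 ∧ ∀ s ∈ u.primeFactors, ¬ P ∣ s - 1 := by
    intro P hP q hq hne
    obtain ⟨hPR, hP12⟩ := mem_sdiff.1 hP
    obtain ⟨hqR, hq12⟩ := mem_sdiff.1 hq
    have hP1 : ∀ r ∈ R', P < r → ¬ Rel P r := fun r hr hlt hrel =>
      hP12 (mem_union_left _ (mem_biUnion.2 ⟨r, hr, mem_filter.2 ⟨hPR, hlt, hrel⟩⟩))
    refine ⟨fun h => ?_, fun s hs hPs => ?_⟩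
    · rcases Nat.lt_or_gt_of_ne hne with hlt | hlt
      · exact hq12 (mem_union_left _ (mem_biUnion.2 ⟨P, hPR, mem_filter.2 ⟨hqR, hlt, Or.inl h⟩⟩))
      · exact hP1 q hqR hlt (Or.inr (Or.inl h))
    · by_cases hsR : s ∈ R'
      · have h2 := (hpr s hs).two_le
        have := Nat.le_of_dvd (by omega) hPs
        exact hP1 s hsR (by omega) (Or.inr (Or.inr hPs))
      · exact hP12 (mem_union_right _ (mem_filter.2 ⟨hPR, s, mem_sdiff.2 ⟨hs, hsR⟩, hPs⟩))
  have hpart : partU u T = ∏ p ∈ T, p :=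
    prod_congr rfl fun p hp => by rw [(hR'B p (mem_sdiff.1 hp).1).2, pow_one]
  have hnot : ¬ 2 ^ (#T + 2) * u * (u / partU u T) ^ 2 < (∏ P ∈ T, P) * u.totient := fun hlt =>
    no_CH_of_set T hT (fun P hP => by
      have := (hR'B P (mem_sdiff.1 hP).1).1
      omega) hgood hlt hCH
  rw [not_lt, hpart] at hnot
  have hT0 : 0 < ∏ p ∈ T, p := prod_pos fun p hp => (hpr p (hT hp)).pos
  set L := u / ∏ p ∈ T, p
  have huL : u = (∏ p ∈ T, p) * L := (Nat.mul_div_cancel' (hdvd T hT)).symm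
  have hL : L ≤ Z * ((∏ p ∈ R1, p) * Z) := by
    refine Nat.le_of_mul_le_mul_left ?_ hT0
    rw [← huL]
    calc u = (∏ p ∈ R', p) * Z := hZ
      _ ≤ ((∏ p ∈ T, p) * ((∏ p ∈ R1, p) * ∏ p ∈ R2, p)) * Z := by
          refine Nat.mul_le_mul_right _ ?_
          rw [← prod_sdiff (union_subset hR1 (filter_subset _ _) : R1 ∪ R2 ⊆ R')]
          refine Nat.mul_le_mul_left _ (prod_union_le fun p hp => (hpr p (hR'u ?_)).pos)
          rcases mem_union.1 hp with hp | hp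
          · exact hR1 hp
          · exact (mem_filter.1 hp).1
      _ ≤ ((∏ p ∈ T, p) * ((∏ p ∈ R1, p) * Z)) * Z :=
          Nat.mul_le_mul_right _ (Nat.mul_le_mul_left _ (Nat.mul_le_mul_left _ hR2))
      _ = _ := by ring
  have hmain : u ≤ 4 * (2 ^ #u.primeFactors * 2 ^ #u.primeFactors) * L ^ 3 := by
    have hTc : 2 ^ #T ≤ 2 ^ #u.primeFactors :=
      Nat.pow_le_pow_right two_pos (card_le_card hT)
    have h2 : (∏ p ∈ T, p) * u.totient ≤ (∏ p ∈ T, p) * (2 ^ (#T + 2) * L ^ 3) := by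
      refine hnot.trans (le_of_eq ?_)
      conv_lhs => rw [huL]
      ring
    have h3 := Nat.le_of_mul_le_mul_left h2 hT0
    calc u ≤ 2 ^ #u.primeFactors * u.totient := le_two_pow_mul_totient u
      _ ≤ 2 ^ #u.primeFactors * (2 ^ (#T + 2) * L ^ 3) := Nat.mul_le_mul_left _ h3
      _ = 4 * (2 ^ #u.primeFactors * 2 ^ #T) * L ^ 3 := by ring
      _ ≤ _ := Nat.mul_le_mul_right _ (Nat.mul_le_mul_left _ (Nat.mul_le_mul_left _ hTc))
  have hRu : (∏ p ∈ R', p) ≤ u := Nat.le_of_dvd hu (hdvd R' hR'u)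
  refine size_bound hu hmain ?_ (W := ∏ p ∈ R', p) ?_ hRu
  · rw [← union_sdiff_of_subset hR'u, card_union_of_disjoint disjoint_sdiff, pow_add, mul_pow,
      mul_comm]
    refine Nat.mul_le_mul (Nat.pow_le_pow_left ?_ 16) ?_
    · calc 2 ^ #S = ∏ _p ∈ S, 2 := (prod_const 2).symm
        _ ≤ ∏ p ∈ S, p := prod_le_prod (fun _ _ => Nat.zero_le _)
            fun p hp => (hpr p (sdiff_subset hp)).two_le
        _ ≤ Z := Nat.le_of_dvd hZ0 hSZ
    · rw [← pow_mul, mul_comm, pow_mul]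
      calc (2 ^ 16) ^ #R' = ∏ _p ∈ R', 2 ^ 16 := (prod_const _).symm
        _ ≤ ∏ p ∈ R', p := prod_le_prod (fun _ _ => Nat.zero_le _)
            fun p hp => hB.trans (hR'B p hp).1.le
        _ ≤ u := hRu
  · calc L ^ 8 ≤ (Z * ((∏ p ∈ R1, p) * Z)) ^ 8 := Nat.pow_le_pow_left hL 8
      _ = Z ^ 16 * (∏ p ∈ R1, p) ^ 8 := by ring
      _ ≤ _ := Nat.mul_le_mul_left _ hpack'

end Vale.Agent.P033.PS
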