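import Vale.Agent.P033.PS.Local

/-!
# P033: primes stable under `σ`

For `N = P ^ e * M` a prime over `q` is stable under `σ : ζ ↦ ζ * ω` if `q = P`, or if
`q ^ (P - 1)` is not `1` modulo `P ^ 2` and no prime of `M` is `1` modulo `P`.
-/

open NumberField Finset

namespace Vale.Agent.P033.PS

open Vale.Agent.P033

variable {N : ℕ} [NeZero N] {K : Type*} [Field K] [NumberField K] [IsCyclotomicExtension {N} ℚ K]
  {P : ℕ} [hP : Fact P.Prime] {e M : ℕ}

omit hP in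
theorem totient_not_dvd (hP : P.Prime) {n : ℕ} (hn : n ≠ 0) (hPn : ¬ P ∣ n)
    (hs : ∀ s ∈ n.primeFactors, ¬ P ∣ s - 1) : ¬ P ∣ n.totient := fun h => by
  rw [Nat.totient_eq_prod_factorization hn, Finsupp.prod, Prime.dvd_finsetProd_iff hP.prime] at h
  obtain ⟨s, hsn, hs'⟩ := h
  have hsp := Nat.prime_of_mem_primeFactors hsn
  replace hs' : P ∣ s ^ (n.factorization s - 1) * (s - 1) := hs'
  rcases hP.dvd_mul.1 hs' with h' | h'
  · exact hPn ((Nat.prime_dvd_prime_iff_eq hP hsp).1 (hP.dvd_of_dvd_pow h') ▸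
      Nat.dvd_of_mem_primeFactors hsn)
  · exact hs s hsn h'

/-- A prime which is no Wieferich base has a power in every class of order dividing `P`. -/
theorem exists_power_pow {q M' : ℕ} (hP2 : P ≠ 2) (hq : q.Prime) (hqP : q ≠ P)
    (hqM : Nat.Coprime q M') (hPM : Nat.Coprime P M') (hφ : ¬ P ∣ M'.totient)
    (hW : q ^ (P - 1) % P ^ 2 ≠ 1) (he : 2 ≤ e) (d : ℕ) :
    ∃ j : ℕ, q ^ j ≡ 1 + P ^ (e - 1) * M' * d [MOD P ^ e * M'] := by
  have hqP' : Nat.Coprime q P := (Nat.coprime_primes hq hP.out).2 hqP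
  obtain ⟨f, rfl⟩ : ∃ f, e = f + 2 := ⟨e - 2, by omega⟩
  rw [show f + 2 - 1 = f + 1 from rfl]
  set j₀ := M'.totient * ((P - 1) * P ^ f) with hj₀
  have h1 : q ^ j₀ ≡ 1 [MOD P ^ (f + 1)] := by
    have := (Nat.ModEq.pow_totient (Nat.Coprime.pow_right (f + 1) hqP')).pow M'.totient
    rwa [Nat.totient_prime_pow_succ hP.out, one_pow, ← pow_mul,
      show P ^ f * (P - 1) * M'.totient = j₀ by rw [hj₀]; ring] at this
  have h2 : q ^ j₀ ≡ 1 [MOD M'] := by
    have := (Nat.ModEq.pow_totient hqM).pow ((P - 1) * P ^ f)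
    rwa [one_pow, ← pow_mul] at this
  have h3 := (Nat.modEq_and_modEq_iff_modEq_mul (Nat.Coprime.pow_left (f + 1) hPM)).1 ⟨h1, h2⟩
  have hge : 1 ≤ q ^ j₀ := Nat.one_le_pow _ _ hq.pos
  obtain ⟨b, hb⟩ := (Nat.modEq_iff_dvd' hge).1 h3.symm
  have hqj : q ^ j₀ = 1 + P ^ (f + 1) * M' * b := by rw [← hb, Nat.add_sub_cancel' hge]
  have hPb : ¬ P ∣ b := by
    intro hPb
    have hge1 : 1 ≤ q ^ (P - 1) := Nat.one_le_pow _ _ hq.pos
    have hfer : q ^ (P - 1) ≡ 1 [MOD P] := by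
      have := Nat.ModEq.pow_totient hqP'
      rwa [Nat.totient_prime hP.out] at this
    obtain ⟨a, ha⟩ := (Nat.modEq_iff_dvd' hge1).1 hfer.symm
    have hQ : q ^ (P - 1) = 1 + P * a := by rw [← ha, Nat.add_sub_cancel' hge1]
    have haP : ¬ P ∣ a := by
      rintro ⟨a', rfl⟩
      refine hW ?_
      rw [hQ, ← mul_assoc, ← sq, Nat.add_mul_mod_self_left,
        Nat.one_mod_eq_one.2 (Nat.one_lt_pow two_ne_zero hP.out.one_lt).ne']
    have hord := ZMod.orderOf_one_add_mul_prime hP.out hP2 (a : ℤ)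
      (fun h => haP (Int.natCast_dvd_natCast.1 h)) (f + 1)
    obtain ⟨b', rfl⟩ := hPb
    have hone : (1 + (P : ZMod (P ^ (f + 2))) * ((a : ℤ) : ZMod (P ^ (f + 2)))) ^
        (M'.totient * P ^ f) = 1 := by
      have e1 : q ^ j₀ = (1 + P * a) ^ (M'.totient * P ^ f) := by
        rw [← hQ, ← pow_mul, hj₀]; ring_nf
      have e2 : ((q ^ j₀ : ℕ) : ZMod (P ^ (f + 2))) = 1 := by
        rw [hqj, show P ^ (f + 1) * M' * (P * b') = P ^ (f + 2) * (M' * b') by ring, Nat.cast_add,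
          Nat.cast_mul _ (M' * b'), ZMod.natCast_self, zero_mul, add_zero, Nat.cast_one]
      rw [e1] at e2
      push_cast at e2 ⊢
      exact e2
    have hdvd := orderOf_dvd_of_pow_eq_one hone
    rw [hord, pow_succ', Nat.mul_dvd_mul_iff_right (pow_pos hP.out.pos f)] at hdvd
    exact hφ hdvd
  have hb0 : (b : ZMod P) ≠ 0 := fun h => hPb ((ZMod.natCast_eq_zero_iff _ _).1 h)
  set l := ((d : ZMod P) / b).val with hl
  have hlb : l * b ≡ d [MOD P] := by
    rw [← ZMod.natCast_eq_natCast_iff, Nat.cast_mul, hl, ZMod.natCast_zmod_val, div_mul_cancel₀ _ hb0]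
  refine ⟨j₀ * l, ?_⟩
  rw [pow_mul, hqj, ← ZMod.natCast_eq_natCast_iff]
  push_cast
  set X : ZMod (P ^ (f + 2) * M') :=
    (P : ZMod (P ^ (f + 2) * M')) ^ (f + 1) * (M' : ZMod (P ^ (f + 2) * M')) with hX
  have hsq : X * X = 0 := by
    rw [hX]
    have h0 : ((P ^ (f + 2) * M' : ℕ) : ZMod (P ^ (f + 2) * M')) = 0 := ZMod.natCast_self _
    push_cast at h0
    linear_combination
      ((P : ZMod (P ^ (f + 2) * M')) ^ f * (M' : ZMod (P ^ (f + 2) * M'))) * h0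
  have hpow : ∀ k : ℕ, (1 + X * (b : ZMod (P ^ (f + 2) * M'))) ^ k =
      1 + X * ((k * b : ℕ) : ZMod (P ^ (f + 2) * M')) := by
    intro k
    induction k with
    | zero => simp
    | succ k ih =>
      rw [pow_succ (1 + X * (b : ZMod (P ^ (f + 2) * M'))) k, ih]
      push_cast
      linear_combination
        ((k : ZMod (P ^ (f + 2) * M')) * (b : ZMod (P ^ (f + 2) * M')) *
          (b : ZMod (P ^ (f + 2) * M'))) * hsq
  rw [hpow]
  congr 1
  have h : P ^ (f + 1) * M' * (l * b) ≡ P ^ (f + 1) * M' * d [MOD P ^ (f + 2) * M'] :=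
    ((Nat.ModEq.mul_left' (c := P ^ (f + 1) * M') hlb)).of_dvd ⟨1, by ring⟩
  have := (ZMod.natCast_eq_natCast_iff _ _ _).2 h
  push_cast at this ⊢
  rw [hX]
  exact this

/-- Primes above `P` and above good primes are stable under `σ`. -/
theorem sg_mem (hN : N = P ^ e * M) (he : 2 ≤ e) (hP2 : P ≠ 2) (hPM : ¬ P ∣ M) {q : ℕ}
    (hqp : q.Prime) (hq : q = P ∨ q ^ (P - 1) % P ^ 2 ≠ 1 ∧ ∀ s ∈ M.primeFactors, ¬ P ∣ s - 1)
    {I : Ideal (𝓞 K)} (hI : I.IsPrime) (hqI : (q : 𝓞 K) ∈ I) {x : 𝓞 K} (hx : x ∈ I) :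
    sg K (dvd_sq hN he) x ∈ I := by
  have := Fact.mk hqp
  by_cases hqP : q = P
  · subst hqP
    refine gal_mem_prime (e := e) (N' := M) (j := 0) hN ?_ I hqI hx
    rw [ZMod.coe_unitOfCoprime, ZMod.val_natCast, pow_zero]
    refine ((Nat.mod_modEq _ N).of_dvd (Dvd.intro_left _ hN.symm)).trans ?_
    rw [div_eq hN he]
    exact ((Nat.modEq_iff_dvd' (by omega)).2
      ⟨q ^ (e - 1), by rw [Nat.add_sub_cancel_left, mul_comm]⟩).symm
  obtain ⟨hW, hs⟩ := hq.resolve_left hqP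
  have hM0 : M ≠ 0 := fun h => hPM (h ▸ dvd_zero P)
  obtain ⟨e', M', hM', hMeq⟩ := Nat.exists_eq_pow_mul_and_not_dvd hM0 q hqp.ne_one
  have hqM' : Nat.Coprime q M' := (Nat.Prime.coprime_iff_not_dvd hqp).2 hM'
  have hdvd : M' ∣ M := Dvd.intro_left _ hMeq.symm
  have hPM' : ¬ P ∣ M' := fun h => hPM (h.trans hdvd)
  obtain ⟨j, hj⟩ := exists_power_pow hP2 hqp hqP hqM'
    ((Nat.Prime.coprime_iff_not_dvd hP.out).2 hPM')
    (totient_not_dvd hP.out (fun h => hPM' (h ▸ dvd_zero P)) hPM'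
      fun s hsM => hs s (Nat.primeFactors_mono hdvd hM0 hsM)) hW he (q ^ e')
  refine gal_mem_prime (e := e') (N' := P ^ e * M') (j := j) (by rw [hN, hMeq]; ring) ?_ I hqI hx
  rw [ZMod.coe_unitOfCoprime, ZMod.val_natCast]
  refine ((Nat.mod_modEq _ N).of_dvd ⟨q ^ e', by rw [hN, hMeq]; ring⟩).trans ?_
  rw [div_eq hN he, hMeq, show P ^ (e - 1) * (q ^ e' * M') = P ^ (e - 1) * M' * q ^ e' by ring]
  exact hj.symm

/-- An ideal all whose primes are stable under an endomorphism is stable. -/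
theorem map_mem (f : 𝓞 K →+* 𝓞 K) (E : Ideal (𝓞 K)) : E ≠ ⊥ →
    (∀ I : Ideal (𝓞 K), I.IsPrime → E ≤ I → ∀ y ∈ I, f y ∈ I) → ∀ z ∈ E, f z ∈ E := by
  induction E using UniqueFactorizationMonoid.induction_on_prime with
  | h₁ => exact fun h => absurd Submodule.zero_eq_bot h
  | h₂ E hE => intro _ _ z _; rw [Ideal.isUnit_iff.1 hE]; exact Submodule.mem_top
  | h₃ E p hE hp ih =>
    intro _ hI z hz
    have h1 := hI p (Ideal.isPrime_of_prime hp) Ideal.mul_le_left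
    have h2 := ih hE fun I hIp hEI => hI I hIp (Ideal.mul_le_right.trans hEI)
    induction hz using Submodule.mul_induction_on' with
    | mem_mul_mem a ha b hb => rw [map_mul]; exact Ideal.mul_mem_mul (h1 a ha) (h2 b hb)
    | add a _ b _ iha ihb => rw [map_add]; exact add_mem iha ihb

end Vale.Agent.P033.PS
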